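import Vale.Agent.P368.Circ

namespace Vale.Agent.P368

open Matrix Finset Filter

theorem pow_le_two_pow (q : ℕ) : ∃ b0 : ℕ, ∀ b ≥ b0, b ^ q ≤ 2 ^ b := by
  have h := tendsto_pow_const_div_const_pow_of_one_lt q (r := (2 : ℝ)) (by norm_num)
  have h2 := (h.eventually (gt_mem_nhds (show (0 : ℝ) < 1 by norm_num)))
  obtain ⟨b0, hb0⟩ := eventually_atTop.1 h2
  refine ⟨b0, fun b hb => ?_⟩
  have := hb0 b hb
  rw [div_lt_one (by positivity)] at this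
  exact_mod_cast this.le

theorem root_exists (e b0 : ℕ) (he : e ≠ 0) : ∃ B0 : ℕ, ∀ B ≥ B0, ∃ b ≥ b0, b ^ e ≤ B ∧
    B < (b + 1) ^ e := by
  refine ⟨b0 ^ e, fun B hB => ⟨Nat.nthRoot e B, (Nat.le_nthRoot_iff he).2 hB, ?_, ?_⟩⟩
  · exact Nat.pow_nthRoot_le_iff.2 (Or.inl he)
  · exact Nat.lt_pow_nthRoot_add_one he B

def StarAll (d : ℕ) : Prop :=
  ∀ q : ℕ, ∃ B0 : ℕ, ∀ B ≥ B0, ∀ M : ℕ, M < B ^ q → ∀ U : Mat M, Cir d U → StarP U B

def LinAll (d : ℕ) : Prop :=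
  ∀ q : ℕ, ∃ B0 : ℕ, ∀ B ≥ B0, ∀ M : ℕ, M < B ^ q → ∀ U : Mat M, Cir d U → LinP U B

theorem starAll_zero : StarAll 0 := fun _ =>
  ⟨1, fun _ hB _ _ _ hU => (star_zero hU).mono hB⟩

theorem succ_le_sq {b : ℕ} (hb : 2 ≤ b) : b + 1 ≤ b ^ 2 := by nlinarith

theorem linAll_of_starAll {d : ℕ} (h : StarAll d) : LinAll d := by
  intro q0
  set q := q0 + 1 with hq
  obtain ⟨B1, hB1⟩ := h (80 * q * q)
  obtain ⟨b1, hb1⟩ := pow_le_two_pow (80 * q * q)
  obtain ⟨B0, hB0⟩ := root_exists (40 * q) (max (max B1 b1) 2048) (by omega)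
  refine ⟨max B0 1, fun B hB M hM U hU => ?_⟩
  obtain ⟨b, hb, h1, h2⟩ := hB0 B (le_trans (le_max_left _ _) hB)
  have hB1' : 1 ≤ B := le_trans (le_max_right _ _) hB
  have hb2 : 2048 ≤ b := le_trans (le_max_right _ _) hb
  have hM1 : M < (b + 1) ^ (40 * q * q) := by
    calc M < B ^ q0 := hM
      _ ≤ B ^ q := Nat.pow_le_pow_right hB1' (by omega)
      _ ≤ ((b + 1) ^ (40 * q)) ^ q := by gcongr
      _ = _ := by rw [← pow_mul]
  have hM2 : M < b ^ (80 * q * q) := by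
    calc M < (b + 1) ^ (40 * q * q) := hM1
      _ ≤ (b ^ 2) ^ (40 * q * q) := by gcongr; exact succ_le_sq (by omega)
      _ = _ := by rw [← pow_mul]; ring_nf
  have hΛ : M + 1 ≤ 2 ^ b := lt_of_lt_of_le hM2 (hb1 b (by omega))
  have hc := core (M := M) (Cir d) (fun _ h => h.star) (fun _ h => h.norm_le) (σ := b) (Λ := b)
    (by omega) hΛ (hB1 b (by omega) M hM2) (2 * q0 + 1) ((b + 1) ^ (20 * q))
    (by
      rw [← pow_mul]
      have : 20 * q * (2 * q0 + 1 + 1) = 40 * q * q := by rw [hq]; ring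
      rw [this]; exact hM1) U hU
  refine hc.mono (le_trans ?_ h1)
  have hτ : tau b b ≤ b ^ 5 := by
    unfold tau
    calc 144 * b * (b + 6) * (b + 1) ^ 2 ≤ 144 * b * (2 * b) * (2 * b) ^ 2 := by
          gcongr <;> omega
      _ = 1152 * b ^ 4 := by ring
      _ ≤ b * b ^ 4 := by gcongr; omega
      _ = _ := by ring
  have hr : (b + 1) ^ 10 ≤ b ^ 11 := by
    calc (b + 1) ^ 10 ≤ (2 * b) ^ 10 := by gcongr; omega
      _ = 1024 * b ^ 10 := by ring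
      _ ≤ b * b ^ 10 := by gcongr; omega
      _ = _ := by ring
  calc tau b b ^ (2 * q0 + 1 + 1) * (b + 1) ^ (20 * q)
      = tau b b ^ (2 * q) * ((b + 1) ^ 10) ^ (2 * q) := by
        rw [← pow_mul, hq]; congr 2 <;> ring
    _ ≤ (b ^ 5) ^ (2 * q) * (b ^ 11) ^ (2 * q) := by gcongr
    _ = b ^ (32 * q) := by rw [← pow_mul, ← pow_mul, ← pow_add]; congr 1; ring
    _ ≤ _ := Nat.pow_le_pow_right (by omega) (by omega)

theorem starAll_succ {d : ℕ} (h : LinAll d) : StarAll (d + 1) := by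
  intro q
  obtain ⟨B1, hB1⟩ := h (12 * q)
  obtain ⟨b1, hb1⟩ := pow_le_two_pow (12 * q)
  obtain ⟨B0, hB0⟩ := root_exists 6 (max (max B1 b1) 36) (by omega)
  refine ⟨B0, fun B hB M hM U hU => ?_⟩
  obtain ⟨b, hb, h1, h2⟩ := hB0 B hB
  have hb2 : 36 ≤ b := le_trans (le_max_right _ _) hb
  have hM2 : M < b ^ (12 * q) := by
    calc M < B ^ q := hM
      _ ≤ ((b + 1) ^ 6) ^ q := by gcongr
      _ ≤ ((b ^ 2) ^ 6) ^ q := by gcongr; exact succ_le_sq (by omega)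
      _ = _ := by rw [← pow_mul, ← pow_mul]; ring_nf
  have hΛ : M + 1 ≤ 2 ^ b := lt_of_lt_of_le hM2 (hb1 b (by omega))
  refine (star_succ hΛ (by omega) (by omega : 1 ≤ b) (hB1 b (by omega) M hM2) hU).mono
    (le_trans ?_ h1)
  calc 36 * b ^ 2 * b ^ 3 ≤ b * b ^ 2 * b ^ 3 := by gcongr
    _ = _ := by ring

theorem linAll (d : ℕ) : LinAll d := by
  induction d with
  | zero => exact linAll_of_starAll starAll_zero
  | succ d ih => exact linAll_of_starAll (starAll_succ ih)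

end Vale.Agent.P368
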