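import Vale.Agent.P368.Defs

namespace Vale.Agent.P368

open Matrix Finset
open scoped Matrix.Norms.L2Operator

abbrev Mat (M : ℕ) : Type := Matrix (Bits M) (Bits M) ℂ
abbrev M2 : Type := Matrix Bool Bool ℂ

variable {M : ℕ}

open Classical in
/-- Diagonal projector onto the basis states satisfying `p`. -/
noncomputable def ind (p : Bits M → Prop) : Mat M :=
  diagonal (fun x => if p x then (1 : ℂ) else 0)

theorem norm_diag_le (f : Bits M → ℂ) (c : ℝ) (hc : 0 ≤ c) (h : ∀ x, ‖f x‖ ≤ c) :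
    ‖(diagonal f : Mat M)‖ ≤ c := by
  rw [l2_opNorm_diagonal]
  exact (pi_norm_le_iff_of_nonneg hc).2 h

theorem norm_ind_le (p : Bits M → Prop) : ‖ind p‖ ≤ 1 := by
  unfold ind
  apply norm_diag_le _ _ zero_le_one
  intro x
  split_ifs <;> simp

theorem ind_mul (p q : Bits M → Prop) : ind p * ind q = ind (fun x => p x ∧ q x) := by
  unfold ind
  rw [diagonal_mul_diagonal]
  congr 1
  funext x
  by_cases hp : p x <;> by_cases hq : q x <;> simp [hp, hq]

theorem ind_congr {p q : Bits M → Prop} (h : ∀ x, p x ↔ q x) : ind p = ind q := by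
  have : p = q := funext fun x => propext (h x)
  rw [this]

theorem ind_star (p : Bits M → Prop) : (ind p)ᴴ = ind p := by
  unfold ind
  rw [diagonal_conjTranspose]
  congr 1
  funext x
  by_cases hp : p x <;> simp [hp]

theorem ind_add_not (p : Bits M → Prop) : ind p + ind (fun x => ¬ p x) = 1 := by
  unfold ind
  rw [diagonal_add, ← diagonal_one]
  congr 1
  funext x
  by_cases hp : p x <;> simp [hp]

theorem ind_false {p : Bits M → Prop} (h : ∀ x, ¬ p x) : ind p = 0 := by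
  unfold ind
  simp [h]

theorem ind_mul_of_imp {p q : Bits M → Prop} (h : ∀ x, p x → q x) : ind p * ind q = ind p := by
  rw [ind_mul]
  exact ind_congr fun x => ⟨fun hx => hx.1, fun hx => ⟨hx, h x hx⟩⟩

theorem ind_mul_of_imp' {p q : Bits M → Prop} (h : ∀ x, p x → q x) : ind q * ind p = ind p := by
  rw [ind_mul]
  exact ind_congr fun x => ⟨fun hx => hx.2, fun hx => ⟨h x hx, hx⟩⟩

theorem norm_mul_le_left {A B : Mat M} (hA : ‖A‖ ≤ 1) : ‖A * B‖ ≤ ‖B‖ :=
  (norm_mul_le A B).trans (mul_le_of_le_one_left (norm_nonneg _) hA)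

theorem norm_mul_le_right {A B : Mat M} (hB : ‖B‖ ≤ 1) : ‖A * B‖ ≤ ‖A‖ :=
  (norm_mul_le A B).trans (mul_le_of_le_one_right (norm_nonneg _) hB)

theorem norm_mul_le_one {A B : Mat M} (hA : ‖A‖ ≤ 1) (hB : ‖B‖ ≤ 1) : ‖A * B‖ ≤ 1 :=
  (norm_mul_le_left hA).trans hB

theorem sandwich_mono {p p' q q' : Bits M → Prop} (hp : ∀ x, p x → p' x) (hq : ∀ x, q x → q' x)
    (X : Mat M) : ‖ind p * X * ind q‖ ≤ ‖ind p' * X * ind q'‖ := by
  have : ind p * X * ind q = ind p * ((ind p' * X * ind q') * ind q) := by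
    simp only [← mul_assoc]
    rw [ind_mul_of_imp hp, mul_assoc (ind p * X), ind_mul_of_imp' hq]
  rw [this]
  exact (norm_mul_le_left (norm_ind_le _)).trans (norm_mul_le_right (norm_ind_le _))

theorem sandwich_le_one (p q : Bits M → Prop) {X : Mat M} (hX : ‖X‖ ≤ 1) :
    ‖ind p * X * ind q‖ ≤ 1 :=
  norm_mul_le_one (norm_mul_le_one (norm_ind_le _) hX) (norm_ind_le _)

theorem norm_le_one_of_unitary {U : Mat M} (h : Uᴴ * U = 1) : ‖U‖ ≤ 1 := by
  have h1 := l2_opNorm_conjTranspose_mul_self U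
  rw [h] at h1
  have h2 : ‖(1 : Mat M)‖ ≤ 1 := by
    rw [← diagonal_one]
    exact norm_diag_le _ _ zero_le_one (fun x => by simp)
  nlinarith [norm_nonneg U]

theorem entry_le_norm (X : Mat M) (x y : Bits M) : ‖X x y‖ ≤ ‖X‖ := by
  have h := l2_opNorm_mulVec X (EuclideanSpace.single y (1 : ℂ))
  simp only [EuclideanSpace.norm_single, norm_one, mul_one] at h
  refine le_trans ?_ h
  refine le_trans ?_ (PiLp.norm_apply_le _ x)
  simp

/-- Patterns. -/
abbrev Pat (M : ℕ) : Type := Fin M → Option Bool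

/-- Mismatch set. -/
def mis (ρ : Pat M) (x : Bits M) : Finset (Fin M) := univ.filter (fun i => ρ i = some (!x i))

def cnt (ρ : Pat M) (x : Bits M) : ℕ := (mis ρ x).card

theorem cnt_le (ρ : Pat M) (x : Bits M) : cnt ρ x ≤ M := by
  unfold cnt
  simpa using card_le_univ (mis ρ x)

/-- The product projector of a pattern. -/
noncomputable def PP (ρ : Pat M) : Mat M := ind (fun x => cnt ρ x = 0)

noncomputable def WW (ρ : Pat M) (y : ℕ) : Mat M := ind (fun x => y ≤ cnt ρ x)

/-- Localisation at scale `s`. -/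
def Loc (X : Mat M) (s : ℕ) : Prop :=
  ∀ (ρ : Pat M) (l : ℕ), ‖WW ρ (s * l) * X * PP ρ‖ ≤ (1 / 2 : ℝ) ^ l

theorem WW_mono (ρ : Pat M) {y y' : ℕ} (h : y ≤ y') (X : Mat M) :
    ‖WW ρ y' * X * PP ρ‖ ≤ ‖WW ρ y * X * PP ρ‖ :=
  sandwich_mono (fun _ hx => h.trans hx) (fun _ hx => hx) X

theorem Loc.mono {X : Mat M} {s s' : ℕ} (h : Loc X s) (hs : s ≤ s') : Loc X s' :=
  fun ρ l => (WW_mono ρ (Nat.mul_le_mul_right l hs) X).trans (h ρ l)

theorem cnt_update_none (ρ : Pat M) (i : Fin M) (x : Bits M) :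
    mis (Function.update ρ i none) x = (mis ρ x).erase i := by
  ext j
  simp only [mis, mem_filter, mem_univ, true_and, mem_erase]
  by_cases h : j = i
  · subst h; simp
  · simp [h]

theorem loc_mult {X : Mat M} {s : ℕ} (h : Loc X s) (L : ℕ) : ∀ (m : ℕ) (ρ : Pat M),
    ‖WW ρ (s * L + m) * X * ind (fun x => cnt ρ x ≤ m)‖ ≤ ((M : ℝ) + 1) ^ m * (1 / 2 : ℝ) ^ L := by
  intro m
  induction m with
  | zero =>
    intro ρ
    have : ind (fun x => cnt ρ x ≤ 0) = PP ρ := ind_congr fun x => by simp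
    rw [this]
    simpa using h ρ L
  | succ m ih =>
    intro ρ
    classical
    let ch : Bits M → Option (Fin M) := fun x =>
      if hx : (mis ρ x).Nonempty then some hx.choose else none
    have hsum : ind (fun x => cnt ρ x ≤ m + 1) =
        ∑ o : Option (Fin M), ind (fun x => cnt ρ x ≤ m + 1 ∧ ch x = o) := by
      ext x y
      rw [Matrix.sum_apply]
      unfold ind
      by_cases hxy : x = y
      · subst hxy
        simp only [diagonal_apply_eq]
        by_cases hx : cnt ρ x ≤ m + 1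
        · simp [hx]
        · simp [hx]
      · simp [diagonal_apply_ne _ hxy]
    rw [hsum, Finset.mul_sum]
    refine (norm_sum_le _ _).trans ?_
    have hb : ∀ o : Option (Fin M),
        ‖WW ρ (s * L + (m + 1)) * X * ind (fun x => cnt ρ x ≤ m + 1 ∧ ch x = o)‖ ≤
          ((M : ℝ) + 1) ^ m * (1 / 2 : ℝ) ^ L := by
      intro o
      cases o with
      | none =>
        refine le_trans ?_ (ih ρ)
        apply sandwich_mono
        · intro x hx; omega
        · rintro x ⟨_, hx⟩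
          have : ¬ (mis ρ x).Nonempty := by
            intro hne
            simp [ch, hne] at hx
          rw [not_nonempty_iff_eq_empty] at this
          simp [cnt, this]
      | some i =>
        refine le_trans ?_ (ih (Function.update ρ i none))
        apply sandwich_mono
        · intro x hx
          have h1 : (mis ρ x).card - 1 ≤ ((mis ρ x).erase i).card := pred_card_le_card_erase
          unfold cnt at *
          rw [cnt_update_none]
          omega
        · rintro x ⟨hx1, hx⟩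
          have hne : (mis ρ x).Nonempty := by
            by_contra hne
            simp [ch, hne] at hx
          have hi : i ∈ mis ρ x := by
            simp only [ch, hne, dif_pos, Option.some.injEq] at hx
            rw [← hx]
            exact hne.choose_spec
          unfold cnt at *
          rw [cnt_update_none, card_erase_of_mem hi]
          omega
    refine (Finset.sum_le_sum fun o _ => hb o).trans ?_
    simp only [sum_const, card_univ, Fintype.card_option, Fintype.card_fin, nsmul_eq_mul]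
    push_cast
    rw [pow_succ]
    apply le_of_eq
    ring

theorem loc_mul {X Y : Mat M} {s1 s2 Λ : ℕ} (hΛ : M + 1 ≤ 2 ^ Λ) (hΛ1 : 1 ≤ Λ) (h1 : 1 ≤ s1)
    (h2 : 1 ≤ s2) (hX : Loc X s1) (hY : Loc Y s2) (nX : ‖X‖ ≤ 1) (nY : ‖Y‖ ≤ 1) :
    Loc (X * Y) (6 * Λ * s1 * s2) := by
  intro ρ l
  rcases Nat.eq_zero_or_pos l with rfl | hl
  · rw [pow_zero]
    exact sandwich_le_one _ _ (norm_mul_le_one nX nY)
  set y1 := s2 * (l + 1) with hy1
  have hsplit : WW ρ (6 * Λ * s1 * s2 * l) * (X * Y) * PP ρ =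
      (WW ρ (6 * Λ * s1 * s2 * l) * X * ind (fun x => cnt ρ x ≤ y1)) * (Y * PP ρ) +
      (WW ρ (6 * Λ * s1 * s2 * l) * X) * (ind (fun x => ¬ cnt ρ x ≤ y1) * Y * PP ρ) := by
    have := ind_add_not (fun x => cnt ρ x ≤ y1)
    calc WW ρ (6 * Λ * s1 * s2 * l) * (X * Y) * PP ρ
        = WW ρ (6 * Λ * s1 * s2 * l) * X * (ind (fun x => cnt ρ x ≤ y1) +
            ind (fun x => ¬ cnt ρ x ≤ y1)) * Y * PP ρ := by rw [this]; simp [mul_assoc]
      _ = _ := by simp only [mul_add, add_mul, mul_assoc]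
  rw [hsplit]
  refine (norm_add_le _ _).trans ?_
  have e1 : ‖(WW ρ (6 * Λ * s1 * s2 * l) * X * ind (fun x => cnt ρ x ≤ y1)) * (Y * PP ρ)‖ ≤
      (1 / 2 : ℝ) ^ (l + 1) := by
    refine (norm_mul_le_right (norm_mul_le_one nY (norm_ind_le _))).trans ?_
    have hm := loc_mult hX (l + 1 + Λ * y1) y1 ρ
    have hle : s1 * (l + 1 + Λ * y1) + y1 ≤ 6 * Λ * s1 * s2 * l := by
      have a1 : l + 1 ≤ 2 * l := by omega
      have a2 : s1 ≤ Λ * s1 * s2 := by
        calc s1 = 1 * s1 * 1 := by ring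
          _ ≤ Λ * s1 * s2 := by gcongr
      have a3 : s2 ≤ Λ * s1 * s2 := by
        calc s2 = 1 * 1 * s2 := by ring
          _ ≤ Λ * s1 * s2 := by gcongr
      calc s1 * (l + 1 + Λ * y1) + y1 = (s1 + Λ * s1 * s2 + s2) * (l + 1) := by rw [hy1]; ring
        _ ≤ (3 * (Λ * s1 * s2)) * (2 * l) := by gcongr; omega
        _ = _ := by ring
    refine (sandwich_mono (fun x hx => hle.trans hx) (fun x hx => hx) X).trans (hm.trans ?_)
    have hM : ((M : ℝ) + 1) ≤ 2 ^ Λ := by exact_mod_cast hΛ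
    calc ((M : ℝ) + 1) ^ y1 * (1 / 2 : ℝ) ^ (l + 1 + Λ * y1)
        ≤ (2 ^ Λ) ^ y1 * (1 / 2 : ℝ) ^ (l + 1 + Λ * y1) := by gcongr
      _ = (1 / 2 : ℝ) ^ (l + 1) * ((2 : ℝ) * (1 / 2)) ^ (Λ * y1) := by
          rw [← pow_mul, pow_add _ (l + 1), mul_pow]; ring
      _ = _ := by norm_num
  have e2 : ‖(WW ρ (6 * Λ * s1 * s2 * l) * X) * (ind (fun x => ¬ cnt ρ x ≤ y1) * Y * PP ρ)‖ ≤
      (1 / 2 : ℝ) ^ (l + 1) := by
    refine (norm_mul_le_left (norm_mul_le_one (norm_ind_le _) nX)).trans ?_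
    refine le_trans ?_ (hY ρ (l + 1))
    apply sandwich_mono
    · intro x hx; omega
    · intro x hx; exact hx
  calc _ ≤ (1 / 2 : ℝ) ^ (l + 1) + (1 / 2 : ℝ) ^ (l + 1) := add_le_add e1 e2
    _ = _ := by rw [pow_succ]; ring

end Vale.Agent.P368
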