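import Vale.Agent.P368.Layer

namespace Vale.Agent.P368

open Matrix Finset
open scoped Matrix.Norms.L2Operator

variable {M : ℕ}

/-- Hadamard gate. -/
noncomputable def had : M2 :=
  fun a b => (((Real.sqrt 2)⁻¹ : ℝ) : ℂ) * (if a = true ∧ b = true then -1 else 1)

theorem sq_c : (((Real.sqrt 2)⁻¹ : ℝ) : ℂ) * (((Real.sqrt 2)⁻¹ : ℝ) : ℂ) = 1 / 2 := by
  rw [← Complex.ofReal_mul, ← mul_inv, Real.mul_self_sqrt (by norm_num)]
  norm_num

theorem had_star : hadᴴ = had := by
  ext a b
  cases a <;> cases b <;> simp [had, conjTranspose_apply]

theorem had_mul_self : had * had = 1 := by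
  have := sq_c
  ext a b
  simp only [had, Matrix.mul_apply, Fintype.sum_bool]
  generalize (((Real.sqrt 2)⁻¹ : ℝ) : ℂ) = c at *
  cases a <;> cases b <;> simp <;> linear_combination 2 * this

theorem had_pr_true : had * pr (some true) * had =
    fun a b => if a = b then (1 / 2 : ℂ) else -(1 / 2) := by
  have := sq_c
  ext a b
  simp only [had, pr, Matrix.mul_apply, Fintype.sum_bool]
  generalize (((Real.sqrt 2)⁻¹ : ℝ) : ℂ) = c at *
  cases a <;> cases b <;> simp <;> linear_combination this

/-- A one-qubit matrix placed at `i`. -/
noncomputable def at1 (i : Fin M) (a : M2) : Fin M → M2 := Function.update (fun _ => 1) i a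

theorem at1_ne {i j : Fin M} (a : M2) (h : j ≠ i) : at1 i a j = 1 := by simp [at1, h]

theorem uni_at1 (i : Fin M) {a : M2} (h1 : aᴴ * a = 1) (h2 : a * aᴴ = 1) : Uni (at1 i a) := by
  intro j
  by_cases h : j = i
  · subst h; simp [at1, h1, h2]
  · simp [at1_ne a h]

theorem uni_had (i : Fin M) : Uni (at1 i had) :=
  uni_at1 i (by rw [had_star, had_mul_self]) (by rw [had_star, had_mul_self])

theorem tens_at1 (i : Fin M) (a : M2) (z w : Bits M) :
    tens (at1 i a) z w = if ∀ j, j ≠ i → z j = w j then a (z i) (w i) else 0 := by
  split_ifs with h
  · unfold tens
    rw [← mul_prod_erase univ _ (mem_univ i), prod_eq_one, mul_one]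
    · simp [at1]
    · intro j hj
      have hj' := (mem_erase.1 hj).1
      rw [at1_ne a hj', h j hj', Matrix.one_apply_eq]
  · push Not at h
    obtain ⟨j, hj, hne⟩ := h
    by_contra h0
    exact hne (tens_ne_zero h0 (at1_ne a hj))

theorem mat_one (i : Fin M) (u : Matrix.unitaryGroup Bool ℂ) :
    (Gate.one i u).mat = tens (at1 i (u : M2)) := by
  ext z w
  rw [tens_at1]
  rfl

open Classical in
noncomputable def zG (G : Finset (Fin M)) (x : Bits M) : ℝ := if ∀ i ∈ G, x i = true then -1 else 1

theorem mat_toffoli (C : Finset (Fin M)) (b : Fin M) (hC : C.Nonempty) (hb : b ∉ C) :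
    (Gate.toffoli C b hC hb).mat = tens (at1 b had) * dr (zG (insert b C)) * tens (at1 b had) := by
  have hs := sq_c
  ext z w
  rw [Matrix.mul_apply]
  simp only [dr, mul_diagonal, tens_at1]
  by_cases h : ∀ j, j ≠ b → z j = w j
  · rw [← Finset.sum_subset (s₁ := {Function.update w b false, Function.update w b true})
      (subset_univ _)]
    · rw [sum_pair]
      · have h1 : ∀ c : Bool, ∀ j, j ≠ b → z j = Function.update w b c j := by
          intro c j hj; simp [hj, h j hj]
        have h2 : ∀ c : Bool, ∀ j, j ≠ b → Function.update w b c j = w j := by
          intro c j hj; simp [hj]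
        rw [if_pos (h1 _), if_pos (h1 _), if_pos (h2 _), if_pos (h2 _)]
        have h3 : zG (insert b C) (Function.update w b false) = 1 := by
          unfold zG; rw [if_neg]; intro h'; simpa using h' b (mem_insert_self _ _)
        have h4 : zG (insert b C) (Function.update w b true) =
            if ∀ i ∈ C, w i = true then -1 else 1 := by
          unfold zG
          have : (∀ i ∈ insert b C, Function.update w b true i = true) ↔ ∀ i ∈ C, w i = true := by
            simp only [mem_insert, forall_eq_or_imp, Function.update_self, true_and]
            apply forall₂_congr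
            intro i hi
            rw [Function.update_of_ne (fun (e : i = b) => hb (e ▸ hi))]
          simp only [this]
        rw [h3, h4]
        have h5 : ∀ c : Bool, z = Function.update w b c ↔ z b = c := by
          intro c
          constructor
          · intro e; rw [e]; simp
          · intro e
            funext j
            by_cases hj : j = b
            · subst hj; simp [e]
            · exact h1 c j hj
        simp only [Gate.mat, h5, Function.update_self, had]
        generalize (((Real.sqrt 2)⁻¹ : ℝ) : ℂ) = c at *
        by_cases hw : ∀ i ∈ C, w i = true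
        · simp only [if_pos hw, decide_eq_true hw]
          cases z b <;> cases w b <;> simp <;> linear_combination (-2) * hs
        · simp only [if_neg hw, decide_eq_false hw]
          cases z b <;> cases w b <;> simp <;> linear_combination (-2) * hs
      · intro e
        simpa using congrFun e b
    · intro x _ hx
      rw [if_neg (c := ∀ j, j ≠ b → x j = w j), mul_zero]
      intro h'
      apply hx
      have : x = Function.update w b (x b) := by
        funext j
        by_cases hj : j = b
        · subst hj; simp
        · simp [hj, h' j hj]
      rw [this]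
      cases x b <;> simp
  · have : (Gate.toffoli C b hC hb).mat z w = 0 := by
      simp only [Gate.mat]
      rw [if_neg]
      intro e
      apply h
      intro j hj
      rw [e, Function.update_of_ne hj]
    rw [this]
    symm
    apply sum_eq_zero
    intro x _
    by_cases h1 : ∀ j, j ≠ b → z j = x j
    · rw [if_neg (c := ∀ j, j ≠ b → x j = w j), mul_zero]
      intro h2
      exact h fun j hj => (h1 j hj).trans (h2 j hj)
    · rw [if_neg h1]; simp

theorem tens_comm {A B : Fin M → M2} (h : ∀ i, A i = 1 ∨ B i = 1) :
    tens A * tens B = tens B * tens A := by
  rw [tens_mul, tens_mul]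
  congr 1
  funext i
  rcases h i with h | h <;> simp [h]

theorem layer_decomp : ∀ L : List (Gate M), L.Pairwise (fun g h => Disjoint g.support h.support) →
    ∃ (u v : Fin M → M2) (g : Fin M → ℕ) (K : ℕ), Uni u ∧ Uni v ∧
      (∀ i, (∀ γ ∈ L, i ∉ γ.support) → u i = 1 ∧ g i = 0) ∧ (∀ i, g i ≤ K) ∧
      (L.map Gate.mat).prod = tens u * Zm g (Ioc 0 K) * tens v
  | [], _ => ⟨_, _, fun _ => 0, 0, uni_one, uni_one, by simp, by simp, by
      simp [Zm_empty, tens_one]⟩
  | γ :: L, hL => by
    rw [List.pairwise_cons] at hL
    obtain ⟨u, v, g, K, hu, hv, h1, h2, e⟩ := layer_decomp L hL.2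
    have hfree : ∀ i ∈ γ.support, u i = 1 ∧ g i = 0 := fun i hi =>
      h1 i fun γ' hγ' => disjoint_left.1 (hL.1 γ' hγ') hi
    rw [List.map_cons, List.prod_cons, e]
    cases γ with
    | one i a =>
      refine ⟨fun j => at1 i (a : M2) j * u j, v, g, K, (uni_at1 i a.2.1 a.2.2).mul hu, hv, ?_, h2, ?_⟩
      · intro j hj
        have := h1 j fun γ' hγ' => hj γ' (List.mem_cons_of_mem _ hγ')
        have hji : j ≠ i := by simpa [Gate.support] using hj _ List.mem_cons_self
        simp [at1_ne _ hji, this]
      · rw [mat_one, ← tens_mul]; simp only [mul_assoc]
    | toffoli C b hC hb =>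
      classical
      refine ⟨fun j => at1 b had j * u j, fun j => at1 b had j * v j,
        fun j => if j ∈ insert b C then K + 1 else g j, K + 1, (uni_had b).mul hu,
        (uni_had b).mul hv, ?_, ?_, ?_⟩
      · intro j hj
        have := h1 j fun γ' hγ' => hj γ' (List.mem_cons_of_mem _ hγ')
        have hjG : j ∉ insert b C := hj _ List.mem_cons_self
        have hjb : j ≠ b := fun e => hjG (e ▸ mem_insert_self _ _)
        simp only [if_neg hjG, at1_ne _ hjb, this, mul_one, and_self]
      · intro j
        have := h2 j
        dsimp only
        split_ifs <;> omega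
      · have hG : ∀ i ∈ insert b C, u i = 1 ∧ g i = 0 := hfree
        have c1 : tens (at1 b had) * tens u = tens u * tens (at1 b had) := by
          apply tens_comm
          intro i
          by_cases hi : i = b
          · right; exact (hG i (hi ▸ mem_insert_self _ _)).1
          · left; exact at1_ne _ hi
        have c2 : Zm g (Ioc 0 K) * tens (at1 b had) = tens (at1 b had) * Zm g (Ioc 0 K) := by
          apply Zm_comm_tens
          intro i hi
          apply at1_ne
          rintro rfl
          rw [(hG i (mem_insert_self _ _)).2] at hi
          simp at hi
        have c3 : dr (zG (insert b C)) * tens u = tens u * dr (zG (insert b C)) := by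
          apply diag_comm_tens
          intro x y h
          congr 1
          unfold zG
          have : (∀ i ∈ insert b C, x i = true) ↔ (∀ i ∈ insert b C, y i = true) := by
            apply forall₂_congr
            intro i hi
            rw [h i (hG i hi).1]
          simp only [this]
        have c4 : Zm (fun j => if j ∈ insert b C then K + 1 else g j) (Ioc 0 (K + 1)) =
            dr (zG (insert b C)) * Zm g (Ioc 0 K) := by
          unfold Zm
          rw [dr_mul]
          congr 1
          funext x
          unfold zf
          rw [Finset.prod_Ioc_succ_top (Nat.zero_le K), mul_comm]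
          congr 1
          · unfold zG
            have : (∀ i, (if i ∈ insert b C then K + 1 else g i) = K + 1 → x i = true) ↔
                ∀ i ∈ insert b C, x i = true := by
              constructor
              · intro h i hi; exact h i (if_pos hi)
              · intro h i hi
                by_cases hi' : i ∈ insert b C
                · exact h i hi'
                · rw [if_neg hi'] at hi
                  have := h2 i
                  omega
            simp only [this]
          · apply prod_congr rfl
            intro k hk
            rw [mem_Ioc] at hk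
            have : (∀ i, (if i ∈ insert b C then K + 1 else g i) = k → x i = true) ↔
                ∀ i, g i = k → x i = true := by
              apply forall_congr'
              intro i
              by_cases hi' : i ∈ insert b C
              · rw [if_pos hi', (hG i hi').2]
                constructor <;> intro _ h <;> omega
              · rw [if_neg hi']
            simp only [this]
        rw [mat_toffoli, c4, ← tens_mul, ← tens_mul]
        calc tens (at1 b had) * dr (zG (insert b C)) * tens (at1 b had) *
              (tens u * Zm g (Ioc 0 K) * tens v)
            = tens (at1 b had) * dr (zG (insert b C)) * (tens (at1 b had) * tens u) *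
              Zm g (Ioc 0 K) * tens v := by simp only [mul_assoc]
          _ = tens (at1 b had) * (dr (zG (insert b C)) * tens u) * (tens (at1 b had) *
              Zm g (Ioc 0 K)) * tens v := by rw [c1]; simp only [mul_assoc]
          _ = _ := by rw [c3, ← c2]; simp only [mul_assoc]

theorem cir_circuit : ∀ C : List (Layer M), Cir C.length (circuitMat C)
  | [] => by
    have := Cir.base (M := M) _ uni_one
    rwa [tens_one] at this
  | L :: rest => by
    obtain ⟨u, v, g, K, hu, hv, -, -, e⟩ := layer_decomp L.gates L.disj
    have := Cir.step ((cir_circuit rest).mul_tens hu) g (Ioc 0 K) v hv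
    rw [circuitMat, Layer.mat, e]
    simpa only [mul_assoc, List.length_cons] using this

end Vale.Agent.P368
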