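import Mathlib

namespace Vale.Agent.P368

open Finset

/-- Chebyshev recursion. -/
def cheb (z : ℝ) : ℕ → ℝ
  | 0 => 1
  | 1 => z
  | k + 2 => 2 * z * cheb z (k + 1) - cheb z k

theorem cheb_cos (θ : ℝ) : ∀ k : ℕ, cheb (Real.cos θ) k = Real.cos (k * θ)
  | 0 => by simp [cheb]
  | 1 => by simp [cheb]
  | k + 2 => by
    rw [cheb, cheb_cos θ (k + 1), cheb_cos θ k]
    have h1 : ((k + 2 : ℕ) : ℝ) * θ = ((k + 1 : ℕ) : ℝ) * θ + θ := by push_cast; ring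
    have h2 : (k : ℝ) * θ = ((k + 1 : ℕ) : ℝ) * θ - θ := by push_cast; ring
    rw [h1, h2, Real.cos_add, Real.cos_sub]
    ring

theorem cheb_abs_le_one {z : ℝ} (h1 : -1 ≤ z) (h2 : z ≤ 1) (k : ℕ) : |cheb z k| ≤ 1 := by
  rw [← Real.cos_arccos h1 h2, cheb_cos]
  exact Real.abs_cos_le_one _

theorem cheb_cosh (w : ℝ) (hw : w ≠ 0) : ∀ k : ℕ, cheb ((w + w⁻¹) / 2) k = (w ^ k + w⁻¹ ^ k) / 2
  | 0 => by simp [cheb]
  | 1 => by simp [cheb]
  | k + 2 => by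
    rw [cheb, cheb_cosh w hw (k + 1), cheb_cosh w hw k]
    have : w * w⁻¹ = 1 := mul_inv_cancel₀ hw
    generalize w⁻¹ = v at *
    have e1 : w ^ k = w ^ (k + 1) * v := by rw [pow_succ, mul_assoc, this, mul_one]
    have e2 : v ^ k = v ^ (k + 1) * w := by rw [pow_succ, mul_assoc, mul_comm v w, this, mul_one]
    rw [pow_succ w (k + 1), pow_succ v (k + 1)]
    linear_combination (-1 / 2 : ℝ) * e1 + (-1 / 2 : ℝ) * e2

theorem cheb_abs_le (z K : ℝ) (hK : 2 * |z| + 1 ≤ K) : ∀ k : ℕ, |cheb z k| ≤ K ^ k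
  | 0 => by simp [cheb]
  | 1 => by simp only [cheb, pow_one]; linarith [abs_nonneg z]
  | k + 2 => by
    have h1 := cheb_abs_le z K hK (k + 1)
    have h0 := cheb_abs_le z K hK k
    have hz := abs_nonneg z
    have hK1 : 1 ≤ K := by linarith
    have hk : K ^ k ≤ K ^ (k + 1) := pow_le_pow_right₀ hK1 (by omega)
    rw [cheb]
    calc |2 * z * cheb z (k + 1) - cheb z k| ≤ |2 * z * cheb z (k + 1)| + |cheb z k| := abs_sub _ _
      _ = 2 * |z| * |cheb z (k + 1)| + |cheb z k| := by rw [abs_mul, abs_mul]; simp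
      _ ≤ 2 * |z| * K ^ (k + 1) + K ^ (k + 1) := by gcongr; exact h0.trans hk
      _ = (2 * |z| + 1) * K ^ (k + 1) := by ring
      _ ≤ K * K ^ (k + 1) := by gcongr
      _ = _ := by ring

noncomputable def qf (m : ℕ) (x : ℝ) : ℝ := ∏ i ∈ range m, (1 - x / (i + 1))

theorem qf_zero (m : ℕ) : qf m 0 = 1 := by simp [qf]

theorem qf_eq_zero {m x : ℕ} (h1 : 1 ≤ x) (h2 : x ≤ m) : qf m x = 0 := by
  unfold qf
  apply prod_eq_zero (i := x - 1) (by simp; omega)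
  have : ((x - 1 : ℕ) : ℝ) + 1 = x := by
    rw [Nat.cast_sub h1]; simp
  rw [this, div_self]
  · simp
  · exact_mod_cast (by omega : x ≠ 0)

theorem qf_abs_le (m : ℕ) {x K : ℝ} (h0 : 0 ≤ x) (hK : x + 1 ≤ K) : |qf m x| ≤ K ^ m := by
  unfold qf
  rw [abs_prod]
  calc ∏ i ∈ range m, |1 - x / (i + 1)| ≤ ∏ _i ∈ range m, K := by
        apply prod_le_prod (fun _ _ => abs_nonneg _)
        intro i _
        have hi : (1 : ℝ) ≤ (i : ℝ) + 1 := by simp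
        have h1 : x / (i + 1) ≤ x := div_le_self h0 hi
        have h2 : 0 ≤ x / (i + 1) := by positivity
        rw [abs_le]
        constructor <;> linarith
    _ = _ := by simp

noncomputable def zz (t : ℕ) : ℝ := ((1 + 1 / (t : ℝ)) + (1 + 1 / (t : ℝ))⁻¹) / 2

theorem zz_ge (t : ℕ) : 1 ≤ zz t := by
  unfold zz
  have hw : (0 : ℝ) < 1 + 1 / (t : ℝ) := by positivity
  generalize (1 + 1 / (t : ℝ)) = w at *
  have : w + w⁻¹ - 2 = (w - 1) ^ 2 / w := by field_simp; ring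
  have h2 : 0 ≤ (w - 1) ^ 2 / w := by positivity
  linarith

theorem zz_le {t : ℕ} (ht : 1 ≤ t) : zz t ≤ 1 + 2 / (t : ℝ) ^ 2 := by
  unfold zz
  have ht' : (1 : ℝ) ≤ t := by exact_mod_cast ht
  have : ((1 + 1 / (t : ℝ)) + (1 + 1 / (t : ℝ))⁻¹) / 2 = 1 + 1 / (2 * t * (t + 1)) := by
    field_simp; ring
  rw [this]
  have : (1 : ℝ) / (2 * t * (t + 1)) ≤ 2 / (t : ℝ) ^ 2 := by
    rw [div_le_div_iff₀ (by positivity) (by positivity)]
    nlinarith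
  linarith

theorem zz_le_two {t : ℕ} (ht : 1 ≤ t) : zz t ≤ 2 := by
  unfold zz
  have ht' : (1 : ℝ) ≤ t := by exact_mod_cast ht
  have h1 : 1 / (t : ℝ) ≤ 1 := by rw [div_le_one (by positivity)]; exact ht'
  have h2 : (1 + 1 / (t : ℝ))⁻¹ ≤ 1 := inv_le_one_of_one_le₀ (by
    have : 0 ≤ 1 / (t : ℝ) := by positivity
    linarith)
  linarith

theorem cheb_zz_ge {t : ℕ} (ht : 1 ≤ t) (n : ℕ) : (2 : ℝ) ^ n / 2 ≤ cheb (zz t) (t * n) := by
  unfold zz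
  have ht' : (0 : ℝ) < t := by exact_mod_cast ht
  have hw : (0 : ℝ) < 1 + 1 / (t : ℝ) := by positivity
  rw [cheb_cosh _ hw.ne']
  have h1 : (2 : ℝ) ≤ (1 + 1 / (t : ℝ)) ^ t := by
    have := one_add_mul_le_pow (a := 1 / (t : ℝ)) (by
      have : 0 ≤ 1 / (t : ℝ) := by positivity
      linarith) t
    have e : (t : ℝ) * (1 / t) = 1 := by field_simp
    rw [e] at this
    linarith
  have h2 : (2 : ℝ) ^ n ≤ (1 + 1 / (t : ℝ)) ^ (t * n) := by
    rw [pow_mul]; gcongr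
  have h3 : 0 ≤ (1 + 1 / (t : ℝ))⁻¹ ^ (t * n) := by positivity
  linarith

theorem cheb_zz_ge_one (t k : ℕ) : 1 ≤ cheb (zz t) k := by
  unfold zz
  have hw : (0 : ℝ) < 1 + 1 / (t : ℝ) := by positivity
  rw [cheb_cosh _ hw.ne', inv_pow]
  have hp : 0 < (1 + 1 / (t : ℝ)) ^ k := by positivity
  generalize (1 + 1 / (t : ℝ)) ^ k = w at *
  have : w + w⁻¹ - 2 = (w - 1) ^ 2 / w := by field_simp; ring
  have h2 : 0 ≤ (w - 1) ^ 2 / w := by positivity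
  linarith

/-- The approximating polynomial function. -/
noncomputable def pf (m t k : ℕ) (x : ℝ) : ℝ :=
  (cheb (zz t) k)⁻¹ * (cheb (zz t - 2 / ((m * t ^ 2 : ℕ) : ℝ) * x) k * qf m x)

theorem pf_zero (m t k : ℕ) : pf m t k 0 = 1 := by
  unfold pf
  have := cheb_zz_ge_one t k
  rw [qf_zero, mul_zero, sub_zero, mul_one, inv_mul_cancel₀ (by linarith)]

theorem pf_small {m t Λ M x : ℕ} (hm : 1 ≤ m) (ht : 1 ≤ t) (hΛ : M + 1 ≤ 2 ^ Λ) (hx1 : 1 ≤ x)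
    (hxR : x ≤ m * t ^ 2) (hxM : x ≤ M) :
    |pf m t (t * ((Λ + 1) * m)) x| ≤ 2 * (1 / 2 : ℝ) ^ m := by
  unfold pf
  rcases le_or_gt x m with hxm | hxm
  · rw [qf_eq_zero hx1 hxm]; simp
  have hm' : (0 : ℝ) < m := by exact_mod_cast hm
  have ht' : (0 : ℝ) < t := by exact_mod_cast ht
  have hR : (0 : ℝ) < ((m * t ^ 2 : ℕ) : ℝ) := by positivity
  have h1 : -1 ≤ zz t - 2 / ((m * t ^ 2 : ℕ) : ℝ) * x := by
    have : 2 / ((m * t ^ 2 : ℕ) : ℝ) * x ≤ 2 := by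
      rw [div_mul_eq_mul_div, div_le_iff₀ hR]
      have : (x : ℝ) ≤ ((m * t ^ 2 : ℕ) : ℝ) := by exact_mod_cast hxR
      linarith
    linarith [zz_ge t]
  have h2 : zz t - 2 / ((m * t ^ 2 : ℕ) : ℝ) * x ≤ 1 := by
    have : 2 / (t : ℝ) ^ 2 ≤ 2 / ((m * t ^ 2 : ℕ) : ℝ) * x := by
      have hxm' : (m : ℝ) ≤ x := by exact_mod_cast hxm.le
      calc 2 / (t : ℝ) ^ 2 = 2 / ((m * t ^ 2 : ℕ) : ℝ) * m := by push_cast; field_simp
        _ ≤ _ := by gcongr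
    linarith [zz_le ht]
  have h3 := cheb_abs_le_one h1 h2 (t * ((Λ + 1) * m))
  have hK : (x : ℝ) + 1 ≤ 2 ^ Λ := by exact_mod_cast (by omega : x + 1 ≤ 2 ^ Λ)
  have h4 := qf_abs_le m (Nat.cast_nonneg x) hK
  have h5 := cheb_zz_ge ht ((Λ + 1) * m)
  have h6 : (0 : ℝ) < 2 ^ ((Λ + 1) * m) / 2 := by positivity
  rw [abs_mul, abs_mul, abs_inv, abs_of_pos (h6.trans_le h5)]
  calc (cheb (zz t) (t * ((Λ + 1) * m)))⁻¹ *
        (|cheb (zz t - 2 / ((m * t ^ 2 : ℕ) : ℝ) * x) (t * ((Λ + 1) * m))| * |qf m x|)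
      ≤ (2 ^ ((Λ + 1) * m) / 2 : ℝ)⁻¹ * (1 * (2 ^ Λ) ^ m) := by gcongr
    _ = _ := by
      rw [add_mul, pow_add, pow_mul, one_mul, one_div, inv_pow]
      field_simp

theorem pf_tail {m t k Λ M x i : ℕ} (hm : 1 ≤ m) (ht : 1 ≤ t) (hΛ : M + 1 ≤ 2 ^ Λ) (hi : 1 ≤ i)
    (hx1 : m * t ^ 2 ≤ x) (hx2 : x ≤ (i + 1) * (m * t ^ 2)) (hxM : x ≤ M) :
    |pf m t k x| ≤ (2 : ℝ) ^ (Λ * m + 4 * i * k) := by
  unfold pf
  have hm' : (0 : ℝ) < m := by exact_mod_cast hm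
  have ht' : (0 : ℝ) < t := by exact_mod_cast ht
  have hR : (0 : ℝ) < ((m * t ^ 2 : ℕ) : ℝ) := by positivity
  have hi' : (1 : ℝ) ≤ i := by exact_mod_cast hi
  have a1 : 2 ≤ 2 / ((m * t ^ 2 : ℕ) : ℝ) * x := by
    rw [div_mul_eq_mul_div, le_div_iff₀ hR]
    have : ((m * t ^ 2 : ℕ) : ℝ) ≤ x := by exact_mod_cast hx1
    linarith
  have a2 : 2 / ((m * t ^ 2 : ℕ) : ℝ) * x ≤ 4 * i := by
    rw [div_mul_eq_mul_div, div_le_iff₀ hR]
    have : (x : ℝ) ≤ (i + 1) * ((m * t ^ 2 : ℕ) : ℝ) := by exact_mod_cast hx2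
    nlinarith
  have a3 : |zz t - 2 / ((m * t ^ 2 : ℕ) : ℝ) * x| ≤ 4 * i := by
    rw [abs_le]
    constructor
    · linarith [zz_ge t]
    · linarith [zz_le_two ht]
  have a4 : (8 * i + 1 : ℝ) ≤ 2 ^ (4 * i) := by
    have : 8 * i + 1 ≤ 2 ^ (4 * i) := by
      have h := one_add_mul_le_pow (a := (15 : ℤ)) (by norm_num) i
      rw [pow_mul]
      have : (1 + (i : ℤ) * 15) ≤ ((2 ^ 4) ^ i : ℕ) := by
        push_cast; norm_num at h ⊢; exact h
      omega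
    exact_mod_cast this
  have h3 := cheb_abs_le (zz t - 2 / ((m * t ^ 2 : ℕ) : ℝ) * x) (2 ^ (4 * i)) (by linarith) k
  have hK : (x : ℝ) + 1 ≤ 2 ^ Λ := by exact_mod_cast (by omega : x + 1 ≤ 2 ^ Λ)
  have h4 := qf_abs_le m (Nat.cast_nonneg x) hK
  have h5 := cheb_zz_ge_one t k
  rw [abs_mul, abs_mul, abs_inv, abs_of_pos (by linarith)]
  calc (cheb (zz t) k)⁻¹ * (|cheb (zz t - 2 / ((m * t ^ 2 : ℕ) : ℝ) * x) k| * |qf m x|)
      ≤ 1 * ((2 ^ (4 * i)) ^ k * (2 ^ Λ) ^ m) := by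
        gcongr
        exact inv_le_one_of_one_le₀ h5
    _ = _ := by rw [← pow_mul, ← pow_mul, one_mul, ← pow_add, add_comm]

/-- Abstract mass bookkeeping. -/
theorem good_pf {α : Type*} (G : (α → ℝ) → ℝ → Prop) (n : α → ℝ) (M Λ : ℕ)
    (hΛ : M + 1 ≤ 2 ^ Λ)
    (hadd : ∀ f g a b, G f a → G g b → G (fun x => f x + g x) (a + b))
    (hsmul : ∀ f a (c : ℝ), G f a → G (fun x => c * f x) (|c| * a))
    (hmono : ∀ f a b, G f a → a ≤ b → G f b)
    (hn : ∀ f a, G f a → G (fun x => n x * f x) (10 * M * a))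
    (ε : ℝ) (hε : 0 ≤ ε) (h1 : G (fun _ => 1) ε) (m t k : ℕ) (hm : 1 ≤ m) (ht : 1 ≤ t) :
    G (fun x => pf m t k (n x)) ((2 : ℝ) ^ ((Λ + 6) * (k + m)) * ε) := by
  have hM : (M : ℝ) + 1 ≤ 2 ^ Λ := by exact_mod_cast hΛ
  have hM0 : (0 : ℝ) ≤ M := Nat.cast_nonneg M
  set K : ℝ := 2 ^ (Λ + 6) with hK
  have hK' : 64 * ((M : ℝ) + 1) ≤ K := by rw [hK, pow_add]; nlinarith
  have hlin : ∀ f a (c e : ℝ), G f a → G (fun x => (c - e * n x) * f x) ((|c| + |e| * (10 * M)) * a) := by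
    intro f a c e hf
    have := hadd _ _ _ _ (hsmul f a c hf) (hsmul _ _ (-e) (hn f a hf))
    rw [abs_neg] at this
    convert this using 2 <;> ring
  have hq : ∀ m : ℕ, G (fun x => qf m (n x)) (K ^ m * ε) := by
    intro m
    induction m with
    | zero => simpa [qf] using h1
    | succ m ih =>
      have := hlin _ _ 1 (1 / ((m : ℝ) + 1)) ih
      refine hmono _ _ _ (by
        convert this using 2
        unfold qf
        rw [prod_range_succ]; ring) ?_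
      have h2 : |1 / ((m : ℝ) + 1)| ≤ 1 := by
        rw [abs_of_pos (by positivity), div_le_one (by positivity)]; simp
      have h3 : |(1 : ℝ)| + |1 / ((m : ℝ) + 1)| * (10 * M) ≤ K := by
        rw [abs_one]; nlinarith
      calc _ ≤ K * (K ^ m * ε) := by gcongr
        _ = _ := by ring
  have hR : (1 : ℝ) ≤ ((m * t ^ 2 : ℕ) : ℝ) := by
    exact_mod_cast Nat.mul_pos hm (by positivity)
  set e : ℝ := 2 / ((m * t ^ 2 : ℕ) : ℝ) with he
  have he2 : |e| ≤ 2 := by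
    rw [he, abs_of_pos (by positivity), div_le_iff₀ (by linarith)]; linarith
  have hz : |zz t| ≤ 2 := by
    rw [abs_of_pos (by linarith [zz_ge t])]; exact zz_le_two ht
  have hc : 2 * (|zz t| + |e| * (10 * M)) + 1 ≤ K := by nlinarith
  have hc0 : 0 ≤ |zz t| + |e| * (10 * M) := by positivity
  have hK1 : 1 ≤ K := by linarith
  have hch : ∀ (f : α → ℝ) (a : ℝ), 0 ≤ a → G f a → ∀ k : ℕ,
      G (fun x => cheb (zz t - e * n x) k * f x) (K ^ k * a) ∧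
      G (fun x => cheb (zz t - e * n x) (k + 1) * f x) (K ^ (k + 1) * a) := by
    intro f a ha hf k
    induction k with
    | zero =>
      refine ⟨by simpa [cheb] using hf, ?_⟩
      refine hmono _ _ _ (hlin f a (zz t) e hf) ?_
      rw [zero_add, pow_one]
      gcongr
      linarith
    | succ k ih =>
      refine ⟨ih.2, ?_⟩
      have := hadd _ _ _ _ (hsmul _ _ 2 (hlin _ _ (zz t) e ih.2)) (hsmul _ _ (-1) ih.1)
      refine hmono _ _ _ (by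
        convert this using 2
        rw [cheb]; ring) ?_
      have hk : K ^ k * a ≤ K ^ (k + 1) * a := by
        gcongr
        omega
      have hp : 0 ≤ K ^ (k + 1) * a := by positivity
      rw [abs_neg, abs_one, abs_two]
      calc _ ≤ (2 * (|zz t| + |e| * (10 * M)) + 1) * (K ^ (k + 1) * a) := by linarith
        _ ≤ K * (K ^ (k + 1) * a) := by gcongr
        _ = _ := by ring
  have h3 := hsmul _ _ (cheb (zz t) k)⁻¹ (hch _ _ (by positivity) (hq m) k).1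
  refine hmono _ _ _ h3 ?_
  have h5 := cheb_zz_ge_one t k
  have h6 : |(cheb (zz t) k)⁻¹| ≤ 1 := by
    rw [abs_inv, abs_of_pos (by linarith)]
    exact inv_le_one_of_one_le₀ h5
  calc _ ≤ 1 * (K ^ k * (K ^ m * ε)) := by gcongr
    _ = _ := by rw [pow_mul, pow_add]; ring

end Vale.Agent.P368
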