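import Vale.Agent.P368.Basic
import Vale.Agent.P368.Poly

namespace Vale.Agent.P368

open Matrix Finset
open scoped Matrix.Norms.L2Operator

variable {M : ℕ}

def res (ρ : Pat M) (g : Fin M → ℕ) (T : Finset ℕ) : Pat M :=
  fun i => if g i ∈ T then ρ i else none

def StarP (U : Mat M) (σ : ℕ) : Prop :=
  ∃ g : Fin M → ℕ, ∀ (ρ' : Pat M) (T : Finset ℕ) (ρ : Pat M) (l : ℕ),
    ‖WW ρ (σ * l) * (U * PP (res ρ' g T) * Uᴴ) * PP ρ‖ ≤ (9 : ℝ) ^ T.card * (1 / 2 : ℝ) ^ l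

def LinP (U : Mat M) (s : ℕ) : Prop := ∀ ρ' : Pat M, Loc (U * PP ρ' * Uᴴ) s

def HP (U : Mat M) (j A : ℕ) : Prop :=
  ∀ (ρ ρ' : Pat M) (y l : ℕ), A * l ^ j ≤ y ^ (j + 1) →
    ‖WW ρ y * (U * PP ρ' * Uᴴ) * PP ρ‖ ≤ (1 / 2 : ℝ) ^ l

theorem StarP.mono {U : Mat M} {s s' : ℕ} (h : StarP U s) (hs : s ≤ s') : StarP U s' := by
  obtain ⟨g, hg⟩ := h
  exact ⟨g, fun ρ' T ρ l => (WW_mono ρ (Nat.mul_le_mul_right l hs) _).trans (hg ρ' T ρ l)⟩

theorem LinP.mono {U : Mat M} {s s' : ℕ} (h : LinP U s) (hs : s ≤ s') : LinP U s' :=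
  fun ρ' => (h ρ').mono hs

theorem cnt_res_eq_zero (ρ : Pat M) (g : Fin M → ℕ) (T : Finset ℕ) (x : Bits M) :
    cnt (res ρ g T) x = 0 ↔ ∀ b ∈ T, b ∉ (mis ρ x).image g := by
  unfold cnt
  rw [card_eq_zero, eq_empty_iff_forall_notMem]
  simp only [mis, mem_filter, mem_univ, true_and, mem_image, not_exists, not_and]
  constructor
  · intro h b hb i hi hgi
    apply h i
    unfold res
    rw [if_pos (hgi ▸ hb)]
    exact hi
  · intro h i hi
    unfold res at hi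
    by_cases hT : g i ∈ T
    · rw [if_pos hT] at hi
      exact h _ hT i hi rfl
    · rw [if_neg hT] at hi
      cases hi

noncomputable def beta (ρ : Pat M) (g : Fin M → ℕ) (T : Finset ℕ) (x : Bits M) : ℝ :=
  if ∀ b ∈ T, b ∉ (mis ρ x).image g then 1 else 0

def NN (ρ : Pat M) (g : Fin M → ℕ) (x : Bits M) : ℕ := ((mis ρ x).image g).card

theorem NN_le (ρ : Pat M) (g : Fin M → ℕ) (x : Bits M) : NN ρ g x ≤ cnt ρ x := card_image_le

theorem NN_eq_zero (ρ : Pat M) (g : Fin M → ℕ) (x : Bits M) : NN ρ g x = 0 ↔ cnt ρ x = 0 := by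
  simp [NN, cnt]

theorem NN_mul_beta (ρ : Pat M) (g : Fin M → ℕ) (T : Finset ℕ) (x : Bits M) :
    (NN ρ g x : ℝ) * beta ρ g T x =
      ∑ b ∈ univ.image g, (beta ρ g T x - beta ρ g (insert b T) x) := by
  have hsub : (mis ρ x).image g ⊆ univ.image g := image_subset_image (subset_univ _)
  unfold beta NN
  by_cases h : ∀ b ∈ T, b ∉ (mis ρ x).image g
  · rw [if_pos h, mul_one]
    have : ∀ b ∈ univ.image g, ((1 : ℝ) - if ∀ b' ∈ insert b T, b' ∉ (mis ρ x).image g then 1 else 0)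
        = if b ∈ (mis ρ x).image g then 1 else 0 := by
      intro b _
      by_cases hb : b ∈ (mis ρ x).image g
      · rw [if_pos hb, if_neg]
        · simp
        · intro h'; exact h' b (mem_insert_self _ _) hb
      · rw [if_neg hb, if_pos]
        · simp
        · intro b' hb'
          rcases mem_insert.1 hb' with rfl | hb'
          · exact hb
          · exact h _ hb'
    rw [sum_congr rfl this, ← sum_filter, sum_const, filter_mem_eq_inter,
      inter_eq_right.2 hsub]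
    simp
  · rw [if_neg h, mul_zero]
    symm
    apply sum_eq_zero
    intro b _
    rw [if_neg]
    · simp
    · intro h'
      exact h fun b' hb' => h' b' (mem_insert_of_mem hb')

/-- Real diagonal matrix. -/
noncomputable def dr (f : Bits M → ℝ) : Mat M := diagonal (fun x => ((f x : ℝ) : ℂ))

theorem dr_add (f g : Bits M → ℝ) : dr (fun x => f x + g x) = dr f + dr g := by
  unfold dr; rw [diagonal_add]; simp

theorem dr_sub (f g : Bits M → ℝ) : dr (fun x => f x - g x) = dr f - dr g := by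
  unfold dr; rw [diagonal_sub]; simp

theorem dr_smul (c : ℝ) (f : Bits M → ℝ) : dr (fun x => c * f x) = (c : ℂ) • dr f := by
  unfold dr; rw [← diagonal_smul]; congr 1; funext x; simp

theorem dr_sum {ι : Type*} (s : Finset ι) (f : ι → Bits M → ℝ) :
    dr (fun x => ∑ i ∈ s, f i x) = ∑ i ∈ s, dr (f i) := by
  classical
  induction s using Finset.induction_on with
  | empty => simp [dr]
  | insert a s ha ih => simp only [sum_insert ha]; rw [dr_add, ih]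

theorem ind_eq_dr (p : Bits M → Prop) [DecidablePred p] :
    ind p = dr (fun x => if p x then 1 else 0) := by
  unfold ind dr
  congr 1
  funext x
  by_cases h : p x <;> simp [h]

theorem norm_dr_le (f : Bits M → ℝ) (c : ℝ) (hc : 0 ≤ c) (h : ∀ x, |f x| ≤ c) : ‖dr f‖ ≤ c :=
  norm_diag_le _ _ hc (fun x => by simpa using h x)

theorem dr_beta (ρ : Pat M) (g : Fin M → ℕ) (T : Finset ℕ) : dr (beta ρ g T) = PP (res ρ g T) := by
  unfold PP
  rw [ind_eq_dr]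
  congr 1
  funext x
  unfold beta
  simp only [cnt_res_eq_zero]

theorem first_term {U : Mat M} {σ Λ : ℕ} (hΛ : M + 1 ≤ 2 ^ Λ) {g : Fin M → ℕ}
    (hg : ∀ (ρ' : Pat M) (T : Finset ℕ) (ρ : Pat M) (l : ℕ),
      ‖WW ρ (σ * l) * (U * PP (res ρ' g T) * Uᴴ) * PP ρ‖ ≤ (9 : ℝ) ^ T.card * (1 / 2 : ℝ) ^ l)
    (ρ ρ' : Pat M) (l m t k : ℕ) (hm : 1 ≤ m) (ht : 1 ≤ t) :
    ‖WW ρ (σ * l) * (U * dr (fun x => pf m t k (NN ρ' g x)) * Uᴴ) * PP ρ‖ ≤
      (2 : ℝ) ^ ((Λ + 6) * (k + m)) * (1 / 2 : ℝ) ^ l := by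
  let ν : Mat M → ℝ := fun X => ‖WW ρ (σ * l) * (U * X * Uᴴ) * PP ρ‖
  have νadd : ∀ X Y, ν (X + Y) ≤ ν X + ν Y := by
    intro X Y
    simp only [ν, mul_add, add_mul]
    exact norm_add_le _ _
  have νsub : ∀ X Y, ν (X - Y) ≤ ν X + ν Y := by
    intro X Y
    simp only [ν, mul_sub, sub_mul]
    exact norm_sub_le _ _
  have νsmul : ∀ (c : ℝ) X, ν ((c : ℂ) • X) = |c| * ν X := by
    intro c X
    simp only [ν, mul_smul_comm, smul_mul_assoc, norm_smul]
    simp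
  have νsum : ∀ (s : Finset ℕ) (X : ℕ → Mat M), ν (∑ b ∈ s, X b) ≤ ∑ b ∈ s, ν (X b) := by
    intro s X
    simp only [ν, Finset.mul_sum, Finset.sum_mul]
    exact norm_sum_le _ _
  let G : (Bits M → ℝ) → ℝ → Prop := fun f a =>
    ∀ T : Finset ℕ, ν (dr (fun x => f x * beta ρ' g T x)) ≤ a * 9 ^ T.card
  have key := good_pf G (fun x => (NN ρ' g x : ℝ)) M Λ hΛ
    (by
      intro f f' a b hf hf' T
      simp only [add_mul]
      rw [dr_add]
      exact (νadd _ _).trans (add_le_add (hf T) (hf' T)))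
    (by
      intro f a c hf T
      simp only [mul_assoc]
      rw [dr_smul, νsmul]
      exact mul_le_mul_of_nonneg_left (hf T) (abs_nonneg c))
    (by
      intro f a b hf hab T
      exact (hf T).trans (by gcongr))
    (by
      intro f a hf T
      have ha : 0 ≤ a := by
        have := (norm_nonneg _).trans (hf ∅)
        simpa using this
      have e : (fun x => (NN ρ' g x : ℝ) * f x * beta ρ' g T x) =
          fun x => ∑ b ∈ univ.image g, (f x * beta ρ' g T x - f x * beta ρ' g (insert b T) x) := by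
        funext x
        rw [mul_comm _ (f x), mul_assoc, NN_mul_beta, Finset.mul_sum]
        simp only [mul_sub]
      show ν (dr (fun x => (NN ρ' g x : ℝ) * f x * beta ρ' g T x)) ≤ _
      rw [e, dr_sum]
      refine (νsum _ _).trans ?_
      have hb : ∀ b ∈ univ.image g,
          ν (dr (fun x => f x * beta ρ' g T x - f x * beta ρ' g (insert b T) x)) ≤
            10 * a * 9 ^ T.card := by
        intro b _
        rw [dr_sub]
        refine (νsub _ _).trans ((add_le_add (hf T) (hf (insert b T))).trans ?_)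
        have : (9 : ℝ) ^ (insert b T).card ≤ 9 ^ (T.card + 1) :=
          pow_le_pow_right₀ (by norm_num) (card_insert_le _ _)
        rw [pow_succ] at this
        nlinarith
      refine (sum_le_sum hb).trans ?_
      rw [sum_const, nsmul_eq_mul]
      have : ((univ.image g).card : ℝ) ≤ M := by
        have : (univ.image g).card ≤ M := card_image_le.trans (by simp)
        exact_mod_cast this
      calc _ ≤ (M : ℝ) * (10 * a * 9 ^ T.card) := by gcongr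
        _ = _ := by ring)
    ((1 / 2 : ℝ) ^ l) (by positivity)
    (by
      intro T
      simp only [one_mul]
      rw [dr_beta, mul_comm]
      exact hg ρ' T ρ l)
    m t k hm ht ∅
  simpa [beta] using key

theorem second_term {X : Mat M} (hX : ‖X‖ ≤ 1) {Λ : ℕ} (hΛ : M + 1 ≤ 2 ^ Λ) (g : Fin M → ℕ)
    (ρ' : Pat M) (m t : ℕ) (hm : 1 ≤ m) (ht : 1 ≤ t)
    (htail : ∀ x i : ℕ, 1 ≤ i → i * (m * t ^ 2) ≤ x →
      ‖WW ρ' x * X * PP ρ'‖ ≤ (1 / 2 : ℝ) ^ (6 * i * (t * ((Λ + 1) * m)))) :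
    ‖(PP ρ' - dr (fun x => pf m t (t * ((Λ + 1) * m)) (NN ρ' g x))) * X * PP ρ'‖ ≤
      3 * (1 / 2 : ℝ) ^ m := by
  set k := t * ((Λ + 1) * m) with hk
  set R := m * t ^ 2 with hR
  have hR0 : 0 < R := Nat.mul_pos hm (by positivity)
  have e : PP ρ' - dr (fun x => pf m t k (NN ρ' g x)) =
      dr (fun x => if 1 ≤ NN ρ' g x ∧ NN ρ' g x ≤ R then - pf m t k (NN ρ' g x) else 0) +
      ∑ v ∈ Ioc R M, ((- pf m t k v : ℝ) : ℂ) • ind (fun x => NN ρ' g x = v) := by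
    simp only [ind_eq_dr, PP, ← dr_smul]
    rw [← dr_sum, ← dr_add, ← dr_sub]
    congr 1
    funext x
    have hle : NN ρ' g x ≤ M := (NN_le _ _ _).trans (cnt_le _ _)
    simp only [mul_ite, mul_one, mul_zero, sum_ite_eq, mem_Ioc]
    by_cases h0 : NN ρ' g x = 0
    · rw [if_pos ((NN_eq_zero _ _ _).1 h0), h0]
      simp [pf_zero]
    · rw [if_neg (fun h => h0 ((NN_eq_zero _ _ _).2 h))]
      by_cases h1 : NN ρ' g x ≤ R
      · rw [if_pos ⟨by omega, h1⟩, if_neg (by omega)]; simp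
      · rw [if_neg (by omega), if_pos ⟨by omega, hle⟩]; simp
  rw [e, add_mul, add_mul, Finset.sum_mul, Finset.sum_mul]
  refine (norm_add_le _ _).trans ?_
  have e1 : ‖dr (fun x => if 1 ≤ NN ρ' g x ∧ NN ρ' g x ≤ R then - pf m t k (NN ρ' g x) else 0) *
      X * PP ρ'‖ ≤ 2 * (1 / 2 : ℝ) ^ m := by
    refine (norm_mul_le_right (norm_ind_le _)).trans ((norm_mul_le_right hX).trans ?_)
    apply norm_dr_le _ _ (by positivity)
    intro x
    split_ifs with h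
    · rw [abs_neg]
      exact pf_small hm ht hΛ h.1 h.2 ((NN_le _ _ _).trans (cnt_le _ _))
    · simp
  have e2 : ∀ v ∈ Ioc R M, ‖(((- pf m t k v : ℝ) : ℂ) • ind (fun x => NN ρ' g x = v)) * X * PP ρ'‖ ≤
      (1 / 2 : ℝ) ^ (Λ + m) := by
    intro v hv
    rw [mem_Ioc] at hv
    rw [smul_mul_assoc, smul_mul_assoc, norm_smul]
    have hi : 1 ≤ v / R := (Nat.le_div_iff_mul_le hR0).2 (by omega)
    have h1 : v / R * R ≤ v := Nat.div_mul_le_self v R
    have h2 : v ≤ (v / R + 1) * R := by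
      have := Nat.lt_div_mul_add (a := v) hR0
      rw [add_mul]; omega
    have a1 := pf_tail (k := k) hm ht hΛ hi hv.1.le h2 hv.2
    have a2 : ‖ind (fun x => NN ρ' g x = v) * X * PP ρ'‖ ≤ (1 / 2 : ℝ) ^ (6 * (v / R) * k) := by
      refine le_trans ?_ (htail v (v / R) hi h1)
      apply sandwich_mono
      · intro x hx; rw [← hx]; exact NN_le _ _ _
      · intro x hx; exact hx
    have hk1 : (Λ + 1) * m ≤ k := by
      rw [hk]; exact Nat.le_mul_of_pos_left _ ht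
    have hk2 : k ≤ v / R * k := Nat.le_mul_of_pos_left _ hi
    have hΛm : Λ ≤ Λ * m := Nat.le_mul_of_pos_right _ hm
    have hexp : Λ * m + 4 * (v / R) * k + (Λ + m) ≤ 6 * (v / R) * k := by
      have : (Λ + 1) * m = Λ * m + m := by ring
      rw [mul_assoc, mul_assoc]
      omega
    obtain ⟨c, hc⟩ := Nat.exists_eq_add_of_le hexp
    simp only [Complex.norm_real, Real.norm_eq_abs, abs_neg]
    calc |pf m t k v| * ‖ind (fun x => NN ρ' g x = v) * X * PP ρ'‖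
        ≤ (2 : ℝ) ^ (Λ * m + 4 * (v / R) * k) * (1 / 2 : ℝ) ^ (6 * (v / R) * k) := by gcongr
      _ = ((2 : ℝ) * (1 / 2)) ^ (Λ * m + 4 * (v / R) * k) * ((1 / 2 : ℝ) ^ (Λ + m) * (1 / 2) ^ c) := by
          rw [hc, pow_add (1 / 2 : ℝ), pow_add (1 / 2 : ℝ) (Λ * m + 4 * (v / R) * k), mul_pow]; ring
      _ ≤ _ := by
          have : (1 / 2 : ℝ) ^ c ≤ 1 := pow_le_one₀ (by norm_num) (by norm_num)
          rw [show (2 : ℝ) * (1 / 2) = 1 by norm_num, one_pow, one_mul]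
          exact mul_le_of_le_one_right (by positivity) this
  have e3 : ‖∑ v ∈ Ioc R M, (((- pf m t k v : ℝ) : ℂ) • ind (fun x => NN ρ' g x = v)) * X * PP ρ'‖ ≤
      (1 / 2 : ℝ) ^ m := by
    refine (norm_sum_le _ _).trans ((sum_le_sum e2).trans ?_)
    rw [sum_const, nsmul_eq_mul, Nat.card_Ioc]
    have : ((M - R : ℕ) : ℝ) ≤ 2 ^ Λ := by exact_mod_cast (by omega : M - R ≤ 2 ^ Λ)
    calc _ ≤ (2 : ℝ) ^ Λ * (1 / 2 : ℝ) ^ (Λ + m) := by gcongr
      _ = ((2 : ℝ) * (1 / 2)) ^ Λ * (1 / 2 : ℝ) ^ m := by rw [pow_add, mul_pow]; ring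
      _ = _ := by norm_num
  linarith

theorem PP_star (ρ : Pat M) : (PP ρ)ᴴ = PP ρ := ind_star _
theorem WW_star (ρ : Pat M) (y : ℕ) : (WW ρ y)ᴴ = WW ρ y := ind_star _
theorem PP_mul_self (ρ : Pat M) : PP ρ * PP ρ = PP ρ := ind_mul_of_imp fun _ h => h
theorem norm_PP (ρ : Pat M) : ‖PP ρ‖ ≤ 1 := norm_ind_le _
theorem norm_WW (ρ : Pat M) (y : ℕ) : ‖WW ρ y‖ ≤ 1 := norm_ind_le _

theorem norm_conj_le {U X : Mat M} (hU : ‖U‖ ≤ 1) (hX : ‖X‖ ≤ 1) : ‖U * X * Uᴴ‖ ≤ 1 :=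
  norm_mul_le_one (norm_mul_le_one hU hX) (by rwa [l2_opNorm_conjTranspose])

theorem core_bound {U : Mat M} (hU : ‖U‖ ≤ 1) {σ Λ : ℕ} (hΛ : M + 1 ≤ 2 ^ Λ) (hS : StarP U σ)
    (ρ ρ' : Pat M) (y m t : ℕ) (hm : 1 ≤ m) (ht : 1 ≤ t)
    (hy : σ * (3 * (Λ + 6) * (t * ((Λ + 1) * m))) ≤ y)
    (htail : ∀ x i : ℕ, 1 ≤ i → i * (m * t ^ 2) ≤ x →
      ‖WW ρ' x * (Uᴴ * PP ρ * U) * PP ρ'‖ ≤ (1 / 2 : ℝ) ^ (6 * i * (t * ((Λ + 1) * m)))) :
    ‖WW ρ y * (U * PP ρ' * Uᴴ) * PP ρ‖ ^ 2 ≤ 4 * (1 / 2 : ℝ) ^ m := by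
  obtain ⟨g, hg⟩ := hS
  have hU' : ‖Uᴴ‖ ≤ 1 := by rwa [l2_opNorm_conjTranspose]
  set k := t * ((Λ + 1) * m) with hk
  set D := dr (fun x => pf m t k (NN ρ' g x)) with hD
  have h1 := first_term hΛ hg ρ ρ' (3 * (Λ + 6) * k) m t k hm ht
  have hX : ‖Uᴴ * PP ρ * U‖ ≤ 1 := norm_mul_le_one (norm_mul_le_one hU' (norm_PP _)) hU
  have h2 := second_term hX hΛ g ρ' m t hm ht htail
  rw [← hk, ← hD] at h2
  rw [← hD] at h1
  have h1' : ‖WW ρ y * (U * D * Uᴴ) * PP ρ‖ ≤ (1 / 2 : ℝ) ^ m := by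
    refine (WW_mono ρ hy _).trans (h1.trans ?_)
    have hk1 : (Λ + 1) * m ≤ k := by
      rw [hk]; exact Nat.le_mul_of_pos_left _ ht
    have hk2 : m ≤ k := le_trans (Nat.le_mul_of_pos_left _ (by omega)) hk1
    have hexp : (Λ + 6) * (k + m) + m ≤ 3 * (Λ + 6) * k := by
      have a1 : (Λ + 6) * m ≤ (Λ + 6) * k := by gcongr
      have a2 : k ≤ (Λ + 6) * k := Nat.le_mul_of_pos_left _ (by omega)
      rw [mul_add, mul_assoc]
      omega
    obtain ⟨c, hc⟩ := Nat.exists_eq_add_of_le hexp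
    calc (2 : ℝ) ^ ((Λ + 6) * (k + m)) * (1 / 2 : ℝ) ^ (3 * (Λ + 6) * k)
        = ((2 : ℝ) * (1 / 2)) ^ ((Λ + 6) * (k + m)) * ((1 / 2 : ℝ) ^ m * (1 / 2) ^ c) := by
          rw [hc, pow_add (1 / 2 : ℝ), pow_add (1 / 2 : ℝ) ((Λ + 6) * (k + m)), mul_pow]; ring
      _ ≤ _ := by
          have : (1 / 2 : ℝ) ^ c ≤ 1 := pow_le_one₀ (by norm_num) (by norm_num)
          rw [show (2 : ℝ) * (1 / 2) = 1 by norm_num, one_pow, one_mul]
          exact mul_le_of_le_one_right (by positivity) this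
  set A := WW ρ y * (U * PP ρ' * Uᴴ) * PP ρ with hA
  have e0 : ‖A‖ ^ 2 = ‖A * Aᴴ‖ := by
    have := l2_opNorm_conjTranspose_mul_self Aᴴ
    rw [conjTranspose_conjTranspose, l2_opNorm_conjTranspose] at this
    rw [this, sq]
  have e1 : A * Aᴴ = (WW ρ y * (U * D * Uᴴ) * PP ρ) * (U * PP ρ' * Uᴴ * WW ρ y) +
      (WW ρ y * U) * (((PP ρ' - D) * (Uᴴ * PP ρ * U) * PP ρ') * (Uᴴ * WW ρ y)) := by
    rw [hA]
    simp only [conjTranspose_mul, PP_star, WW_star, conjTranspose_conjTranspose, mul_assoc,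
      sub_mul, mul_sub]
    rw [← mul_assoc (PP ρ) (PP ρ), PP_mul_self]
    abel
  rw [e0, e1]
  refine (norm_add_le _ _).trans ?_
  have b1 : ‖(WW ρ y * (U * D * Uᴴ) * PP ρ) * (U * PP ρ' * Uᴴ * WW ρ y)‖ ≤ (1 / 2 : ℝ) ^ m :=
    (norm_mul_le_right (norm_mul_le_one (norm_conj_le hU (norm_PP _)) (norm_WW _ _))).trans h1'
  have b2 : ‖(WW ρ y * U) * (((PP ρ' - D) * (Uᴴ * PP ρ * U) * PP ρ') * (Uᴴ * WW ρ y))‖ ≤
      3 * (1 / 2 : ℝ) ^ m :=
    (norm_mul_le_left (norm_mul_le_one (norm_WW _ _) hU)).trans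
      ((norm_mul_le_right (norm_mul_le_one hU' (norm_WW _ _))).trans h2)
  linarith

theorem WW_big (ρ : Pat M) {y : ℕ} (h : M < y) : WW ρ y = 0 :=
  ind_false fun x hx => by have := cnt_le ρ x; omega

theorem HP_zero (U : Mat M) : HP U 0 (M + 1) := by
  intro ρ ρ' y l h
  rw [WW_big ρ (by simpa using h)]
  simp

/-- The growth factor. -/
def tau (σ Λ : ℕ) : ℕ := 144 * σ * (Λ + 6) * (Λ + 1) ^ 2

theorem HP_step {U : Mat M} (hU : ‖U‖ ≤ 1) {σ Λ j A : ℕ} (hσ : 1 ≤ σ) (hΛ : M + 1 ≤ 2 ^ Λ)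
    (hS : StarP U σ) (hA : M + 1 ≤ A) (hH : HP Uᴴ j A) : HP U (j + 1) (A * tau σ Λ ^ (j + 2)) := by
  intro ρ ρ' y l h
  rcases Nat.eq_zero_or_pos l with rfl | hl
  · rw [pow_zero]
    exact sandwich_le_one _ _ (norm_conj_le hU (norm_PP _))
  rcases lt_or_ge M y with hy | hy
  · rw [WW_big ρ hy]; simp
  set τ := tau σ Λ with hτ
  have hτ0 : 0 < τ := by rw [hτ, tau]; positivity
  have hy0 : 0 < y := by
    by_contra h0
    have : y = 0 := by omega
    rw [this, zero_pow (by omega)] at h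
    have : 0 < A * τ ^ (j + 2) * l ^ (j + 1) := by
      have : 0 < A := by omega
      positivity
    omega
  have hτl : τ * l ≤ y := by
    have a1 : y * (τ ^ (j + 1) * l ^ (j + 1)) ≤ y * y ^ (j + 1) := by
      calc y * (τ ^ (j + 1) * l ^ (j + 1)) ≤ A * (τ ^ (j + 2) * l ^ (j + 1)) := by
            gcongr <;> omega
        _ = A * τ ^ (j + 2) * l ^ (j + 1) := by ring
        _ ≤ y ^ (j + 1 + 1) := h
        _ = _ := by ring
    have a2 := Nat.le_of_mul_le_mul_left a1 hy0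
    rw [← mul_pow] at a2
    exact (Nat.pow_le_pow_iff_left (by omega)).1 a2
  set m := 2 * l + 2 with hm
  set D := σ * (3 * (Λ + 6) * ((Λ + 1) * m)) with hD
  have hD0 : 0 < D := by rw [hD]; positivity
  set E := 24 * σ * (Λ + 6) * (Λ + 1) with hE
  have hτE : τ = E * (6 * (Λ + 1)) := by rw [hτ, hE, tau]; ring
  have h2D : 2 * D ≤ E * l := by
    calc 2 * D = 6 * σ * (Λ + 6) * (Λ + 1) * m := by rw [hD]; ring
      _ ≤ 6 * σ * (Λ + 6) * (Λ + 1) * (4 * l) := by gcongr; omega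
      _ = _ := by rw [hE]; ring
  have hDy : D ≤ y := by
    have : E * l ≤ τ * l := by
      rw [hτE]; gcongr; exact Nat.le_mul_of_pos_right _ (by omega)
    omega
  set t := y / D with ht
  have ht1 : 1 ≤ t := (Nat.le_div_iff_mul_le hD0).2 (by omega)
  have hty : t * D ≤ y := Nat.div_mul_le_self y D
  have hyt : y ≤ E * (t * l) := by
    have a1 := Nat.lt_div_mul_add (a := y) hD0
    rw [← ht] at a1
    have a2 : D ≤ t * D := Nat.le_mul_of_pos_left _ ht1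
    calc y ≤ t * (2 * D) := by rw [mul_left_comm]; omega
      _ ≤ t * (E * l) := by gcongr
      _ = _ := by ring
  have hkey : A * (6 * (Λ + 1)) ^ j ≤ m * t ^ (j + 2) := by
    have hE0 : 0 < E ^ (j + 2) * l ^ (j + 1) := by rw [hE]; positivity
    apply Nat.le_of_mul_le_mul_left _ hE0
    calc E ^ (j + 2) * l ^ (j + 1) * (A * (6 * (Λ + 1)) ^ j)
        ≤ E ^ (j + 2) * l ^ (j + 1) * (A * (6 * (Λ + 1)) ^ (j + 2)) := by
          gcongr
          · omega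
          · omega
      _ = A * τ ^ (j + 2) * l ^ (j + 1) := by rw [hτE, mul_pow E]; ring
      _ ≤ y ^ (j + 1 + 1) := h
      _ ≤ (E * (t * l)) ^ (j + 1 + 1) := by gcongr
      _ = E ^ (j + 2) * l ^ (j + 1) * (l * t ^ (j + 2)) := by rw [mul_pow, mul_pow]; ring
      _ ≤ _ := by gcongr; omega
  have hb := core_bound hU hΛ hS ρ ρ' y m t (by omega) ht1
    (by
      calc _ = t * D := by rw [hD]; ring
        _ ≤ y := hty)
    (by
      intro x i hi hx
      have := hH ρ' ρ x (6 * i * (t * ((Λ + 1) * m))) (by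
        calc A * (6 * i * (t * ((Λ + 1) * m))) ^ j
            = (A * (6 * (Λ + 1)) ^ j) * (i ^ j * (t * m) ^ j) := by
              rw [mul_assoc A, ← mul_pow, ← mul_pow]; congr 2; ring
          _ ≤ (m * t ^ (j + 2)) * (i ^ (j + 1) * (t * m) ^ j) := by
              gcongr
              omega
          _ = (i * (m * t ^ 2)) ^ (j + 1) := by simp only [mul_pow]; ring
          _ ≤ _ := by gcongr)
      rwa [conjTranspose_conjTranspose] at this)
  have e : 4 * (1 / 2 : ℝ) ^ m = ((1 / 2 : ℝ) ^ l) ^ 2 := by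
    rw [hm, ← pow_mul, pow_add, mul_comm l 2]; ring
  rw [e] at hb
  exact (pow_le_pow_iff_left₀ (norm_nonneg _) (by positivity) (by norm_num)).1 hb

theorem core (𝒞 : Mat M → Prop) (hst : ∀ U, 𝒞 U → 𝒞 Uᴴ) (hn : ∀ U, 𝒞 U → ‖U‖ ≤ 1)
    {σ Λ : ℕ} (hσ : 1 ≤ σ) (hΛ : M + 1 ≤ 2 ^ Λ) (hS : ∀ U, 𝒞 U → StarP U σ) (j r : ℕ)
    (hr : M + 1 ≤ r ^ (j + 1)) (U : Mat M) (hU : 𝒞 U) : LinP U (tau σ Λ ^ (j + 1) * r) := by
  have hτ0 : 0 < tau σ Λ := by rw [tau]; positivity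
  have key : ∀ j : ℕ, ∃ A, M + 1 ≤ A ∧ A ≤ (M + 1) * tau σ Λ ^ ((j + 1) * (j + 1)) ∧
      ∀ U, 𝒞 U → HP U j A := by
    intro j
    induction j with
    | zero => exact ⟨M + 1, le_rfl, Nat.le_mul_of_pos_right _ (by positivity), fun U _ => HP_zero U⟩
    | succ j ih =>
      obtain ⟨A, h1, h2, h3⟩ := ih
      refine ⟨A * tau σ Λ ^ (j + 2), h1.trans (Nat.le_mul_of_pos_right _ (by positivity)), ?_,
        fun U hU => HP_step (hn U hU) hσ hΛ (hS U hU) h1 (h3 _ (hst U hU))⟩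
      calc A * tau σ Λ ^ (j + 2) ≤ (M + 1) * tau σ Λ ^ ((j + 1) * (j + 1)) * tau σ Λ ^ (j + 2) := by
            gcongr
        _ = (M + 1) * tau σ Λ ^ ((j + 1) * (j + 1) + (j + 2)) := by rw [mul_assoc, ← pow_add]
        _ ≤ _ := by
            gcongr
            nlinarith
  obtain ⟨A, -, h2, h3⟩ := key j
  intro ρ' ρ l
  rcases Nat.eq_zero_or_pos l with rfl | hl
  · rw [pow_zero]
    exact sandwich_le_one _ _ (norm_conj_le (hn U hU) (norm_PP _))
  apply h3 U hU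
  calc A * l ^ j ≤ (r ^ (j + 1) * tau σ Λ ^ ((j + 1) * (j + 1))) * l ^ (j + 1) := by
        gcongr
        · exact h2.trans (by gcongr)
        · omega
    _ = _ := by rw [mul_pow, mul_pow, ← pow_mul]; ring

end Vale.Agent.P368
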