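import Mathlib

namespace Vale.Agent.P368

/-- Computational basis states of `N` qubits. -/
abbrev Bits (N : ℕ) : Type := Fin N → Bool

/-- A gate on `N` qubits: a one-qubit unitary `u` on qubit `i`, or a generalized Toffoli gate
with a nonempty set `C` of control qubits and target qubit `b` outside `C`. -/
inductive Gate (N : ℕ) : Type where
  | one (i : Fin N) (u : Matrix.unitaryGroup Bool ℂ) : Gate N
  | toffoli (C : Finset (Fin N)) (b : Fin N) (hC : C.Nonempty) (hb : b ∉ C) : Gate N

/-- The qubits a gate acts on. -/
def Gate.support {N : ℕ} : Gate N → Finset (Fin N)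
  | .one i _ => {i}
  | .toffoli C b _ _ => insert b C

/-- The matrix of a gate on all `N` qubits; entry `(z, w)` is the amplitude of `z` in the image
of the basis state `w`. -/
noncomputable def Gate.mat {N : ℕ} : Gate N → Matrix (Bits N) (Bits N) ℂ
  | .one i u => fun z w =>
      if ∀ j, j ≠ i → z j = w j then (u : Matrix Bool Bool ℂ) (z i) (w i) else 0
  | .toffoli C b _ _ => fun z w =>
      if z = Function.update w b (xor (w b) (decide (∀ i ∈ C, w i = true))) then 1 else 0

/-- A layer: gates with pairwise disjoint supports. -/
structure Layer (N : ℕ) : Type where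
  gates : List (Gate N)
  disj : gates.Pairwise (fun g h => Disjoint g.support h.support)

/-- The matrix of a layer: the product of its gates. -/
noncomputable def Layer.mat {N : ℕ} (L : Layer N) : Matrix (Bits N) (Bits N) ℂ :=
  (L.gates.map Gate.mat).prod

/-- The matrix of a circuit (a list of layers, the head of the list applied first). -/
noncomputable def circuitMat {N : ℕ} : List (Layer N) → Matrix (Bits N) (Bits N) ℂ
  | [] => 1
  | L :: rest => circuitMat rest * L.mat

/-- The basis state `x` followed by `N - n` zeros. -/
def inputState (n N : ℕ) (x : Bits n) : Bits N :=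
  fun i => if h : i.val < n then x ⟨i.val, h⟩ else false

/-- The parity of a bit string. -/
def parity {n : ℕ} (x : Bits n) : Bool :=
  decide (Odd (Finset.univ.filter (fun i => x i = true)).card)

/-- The probability that measuring qubit `out` gives `v` after running the circuit on input
`x` padded with zeros. -/
noncomputable def outProb {n N : ℕ} (C : List (Layer N)) (out : Fin N) (x : Bits n) (v : Bool) :
    ℝ :=
  ∑ z : Bits N, if z out = v then ‖circuitMat C z (inputState n N x)‖ ^ 2 else 0

end Vale.Agent.P368
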