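import Vale.Agent.P368.Asym

namespace Vale.Agent.P368

open Matrix Finset
open scoped Matrix.Norms.L2Operator

variable {N : ℕ}

noncomputable def zq : M2 := diagonal (fun a => if a = true then -1 else 1)
noncomputable def xq : M2 := fun a b => if a = b then 0 else 1

theorem had_xq : had * xq * had = zq := by
  have := sq_c
  ext a b
  simp only [had, xq, zq, Matrix.mul_apply, Fintype.sum_bool]
  generalize (((Real.sqrt 2)⁻¹ : ℝ) : ℂ) = c at *
  cases a <;> cases b <;> simp
  · linear_combination 2 * this
  · linear_combination (-2) * this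

noncomputable def Hn (n : ℕ) : Fin N → M2 := fun i => if i.val < n then had else 1
noncomputable def Dn (n : ℕ) : Fin N → M2 := fun i => if i.val < n then zq else pr (some false)
noncomputable def Xn (n : ℕ) : Fin N → M2 := fun i => if i.val < n then xq else pr (some false)

theorem uni_Hn (n : ℕ) : Uni (Hn (N := N) n) := by
  intro i
  unfold Hn
  split_ifs
  · rw [had_star, had_mul_self]; simp
  · simp

theorem Hn_star (n : ℕ) : (tens (Hn (N := N) n))ᴴ = tens (Hn n) := by
  rw [tens_star]
  congr 1
  funext i
  unfold Hn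
  split_ifs
  · exact had_star
  · simp

theorem Dn_eq (n : ℕ) : tens (Dn (N := N) n) = tens (Hn n) * tens (Xn n) * tens (Hn n) := by
  rw [tens_mul, tens_mul]
  congr 1
  funext i
  unfold Hn Dn Xn
  split_ifs
  · exact had_xq.symm
  · simp

theorem card_lt {n : ℕ} (h : n ≤ N) : (univ.filter (fun i : Fin N => i.val < n)).card = n := by
  rw [Fin.card_filter_val_lt]; omega

theorem trace_bound {n B l : ℕ} (h : n ≤ N) (hB : B * l ≤ n) {Y : Mat N} (hY : Loc Y B) :
    ‖trace (tens (Xn n) * Y)‖ ≤ 2 ^ n * (1 / 2 : ℝ) ^ l := by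
  have e1 : ∀ z w : Bits N, ‖tens (Xn n) z w * Y w z‖ ≤ ‖tens (Xn n) z w‖ * (1 / 2 : ℝ) ^ l := by
    intro z w
    rw [norm_mul]
    by_cases h0 : tens (Xn n) z w = 0
    · simp [h0]
    gcongr
    let ρ : Pat N := fun i => some (z i)
    have h1 : cnt ρ z = 0 := by simp [cnt, mis, ρ]
    have h2 : B * l ≤ cnt ρ w := by
      refine hB.trans ?_
      rw [← card_lt h]
      apply card_le_card
      intro i hi
      simp only [mem_filter, mem_univ, true_and, mis, ρ] at hi ⊢
      have : Xn n i (z i) (w i) ≠ 0 := fun e => h0 (prod_eq_zero (mem_univ i) e)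
      simp only [Xn, if_pos hi, xq] at this
      revert this
      cases z i <;> cases w i <;> simp
    have h3 : (WW ρ (B * l) * Y * PP ρ) w z = Y w z := by
      unfold WW PP ind
      rw [mul_diagonal, diagonal_mul, if_pos h1, if_pos h2]
      simp
    rw [← h3]
    exact (entry_le_norm _ _ _).trans (hY ρ l)
  have e2 : ∑ z : Bits N, ∑ w : Bits N, ‖tens (Xn n) z w‖ = 2 ^ n := by
    simp only [tens, norm_prod]
    have a1 : ∀ z : Bits N, ∑ w : Bits N, ∏ i, ‖Xn n i (z i) (w i)‖ =
        ∏ i, ∑ b : Bool, ‖Xn n i (z i) b‖ := by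
      intro z
      rw [Finset.prod_univ_sum, Fintype.piFinset_univ]
    simp only [a1]
    have a2 := Finset.prod_univ_sum (fun _ : Fin N => (univ : Finset Bool))
      (fun i a => ∑ b : Bool, ‖Xn n i a b‖)
    rw [Fintype.piFinset_univ] at a2
    rw [← a2]
    have a3 : ∀ i : Fin N, ∑ a : Bool, ∑ b : Bool, ‖Xn n i a b‖ = if i.val < n then 2 else 1 := by
      intro i
      unfold Xn
      split_ifs
      · simp [xq]; norm_num
      · simp [pr]
    simp only [a3]
    rw [prod_ite, prod_const, prod_const, card_lt h]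
    simp
  unfold trace
  simp only [diag_apply, Matrix.mul_apply]
  refine (norm_sum_le _ _).trans ?_
  rw [← e2, Finset.sum_mul]
  apply sum_le_sum
  intro z _
  refine (norm_sum_le _ _).trans ?_
  rw [Finset.sum_mul]
  exact sum_le_sum fun w _ => e1 z w

noncomputable def sg {n : ℕ} (x : Bits n) : ℝ := ∏ i, (if x i = true then -1 else 1)

theorem sg_eq {n : ℕ} (x : Bits n) : sg x = if parity x = true then -1 else 1 := by
  unfold sg parity
  rw [prod_ite, prod_const, prod_const, one_pow, mul_one]
  simp only [decide_eq_true_eq]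
  split_ifs with h
  · exact h.neg_one_pow
  · exact (Nat.not_odd_iff_even.1 h).neg_one_pow

theorem sum_sg {n : ℕ} (hn : 1 ≤ n) : ∑ x : Bits n, sg x = 0 := by
  unfold sg
  have a2 := Finset.prod_univ_sum (fun _ : Fin n => (univ : Finset Bool))
    (fun _ a => if a = true then (-1 : ℝ) else 1)
  rw [Fintype.piFinset_univ] at a2
  rw [← a2]
  exact prod_eq_zero (mem_univ (⟨0, hn⟩ : Fin n)) (by simp)

theorem input_inj {n : ℕ} (h : n ≤ N) : Function.Injective (inputState n N) := by
  intro x y e
  funext i
  have := congrFun e ⟨i.val, lt_of_lt_of_le i.2 h⟩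
  simpa [inputState] using this

theorem trace_Dn {n : ℕ} (h : n ≤ N) (Y : Mat N) :
    trace (tens (Dn n) * Y) = ∑ x : Bits n, (sg x : ℂ) * Y (inputState n N x) (inputState n N x) := by
  have hd : tens (Dn (N := N) n) = diagonal (fun z => ∏ i, Dn n i (z i) (z i)) := by
    ext z w
    by_cases e : z = w
    · subst e; simp [tens]
    · rw [diagonal_apply_ne _ e]
      obtain ⟨i, hi⟩ := Function.ne_iff.1 e
      apply prod_eq_zero (mem_univ i)
      unfold Dn
      split_ifs
      · exact diagonal_apply_ne _ hi
      · exact diagonal_apply_ne _ hi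
  rw [hd]
  unfold trace
  simp only [diag_apply, diagonal_mul]
  symm
  apply Fintype.sum_of_injective (inputState n N) (input_inj h)
  · intro z hz
    have : ∃ i : Fin N, ¬ i.val < n ∧ z i = true := by
      by_contra hc
      push Not at hc
      apply hz
      refine ⟨fun i => z ⟨i.val, lt_of_lt_of_le i.2 h⟩, ?_⟩
      funext i
      unfold inputState
      split_ifs with hi
      · rfl
      · have := hc i (by omega)
        simpa using this
    obtain ⟨i, hi, hzi⟩ := this
    rw [prod_eq_zero (mem_univ i), zero_mul]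
    simp [Dn, hi, hzi, pr]
  · intro x
    congr 1
    unfold sg
    push_cast
    apply Fintype.prod_of_injective (Fin.castLE h) (Fin.castLE_injective h)
    · intro i hi
      have : ¬ i.val < n := fun e => hi ⟨⟨i.val, e⟩, rfl⟩
      simp [Dn, this, inputState, pr]
    · intro i
      simp only [Dn, inputState, Fin.val_castLE, i.2, if_true, dif_pos, zq, diagonal_apply_eq]
      split_ifs <;> simp

theorem proj_entry (U : Mat N) (out : Fin N) (w : Bits N) :
    (Uᴴ * PP (Function.update (fun _ => none) out (some true)) * U) w w =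
      ((∑ z : Bits N, if z out = true then ‖U z w‖ ^ 2 else 0 : ℝ) : ℂ) := by
  rw [Matrix.mul_apply]
  push_cast
  apply sum_congr rfl
  intro z _
  unfold PP ind
  rw [mul_diagonal, conjTranspose_apply]
  have : cnt (Function.update (fun _ => none) out (some true)) z = 0 ↔ z out = true := by
    unfold cnt
    rw [card_eq_zero, eq_empty_iff_forall_notMem]
    simp only [mis, mem_filter, mem_univ, true_and]
    constructor
    · intro h
      have := h out
      simpa using this
    · intro h i
      by_cases hi : i = out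
      · subst hi; simp [h]
      · simp [hi]
  by_cases h : z out = true
  · rw [if_pos (this.2 h), if_pos h, mul_one]
    simp [Complex.conj_mul']
  · rw [if_neg (fun e => h (this.1 e)), if_neg h]
    simp

theorem outProb_add {n : ℕ} (C : List (Layer N)) (out : Fin N) (x : Bits n) :
    outProb C out x true + outProb C out x false = 1 := by
  unfold outProb
  rw [← sum_add_distrib]
  have hu := (cir_circuit C).unitary
  have := congrFun (congrFun hu (inputState n N x)) (inputState n N x)
  rw [Matrix.mul_apply, Matrix.one_apply_eq] at this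
  simp only [conjTranspose_apply, Complex.star_def, Complex.conj_mul'] at this
  have h2 : ∑ z : Bits N, ‖circuitMat C z (inputState n N x)‖ ^ 2 = 1 := by exact_mod_cast this
  rw [← h2]
  apply sum_congr rfl
  intro z _
  cases z out <;> simp

theorem corr_bound {n B l d : ℕ} (hn : 1 ≤ n) (h : n ≤ N) (hB : B * l ≤ n)
    (hL : ∀ U : Mat N, Cir d U → LinP U B) (C : List (Layer N)) (hC : C.length ≤ d) (out : Fin N) :
    |(∑ x : Bits n, (outProb C out x (parity x) - outProb C out x (!parity x))) / 2 ^ n| ≤
      2 * (1 / 2 : ℝ) ^ l := by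
  have hc : Cir d (circuitMat C) := (cir_circuit C).mono hC
  have hl := hL _ (hc.star.tens_mul (uni_Hn n)) (Function.update (fun _ => none) out (some true))
  have hb := trace_bound h hB hl
  rw [conjTranspose_mul, conjTranspose_conjTranspose, Hn_star] at hb
  have e : trace (tens (Xn n) * (tens (Hn n) * (circuitMat C)ᴴ *
      PP (Function.update (fun _ => none) out (some true)) * (circuitMat C * tens (Hn n)))) =
      trace (tens (Dn n) * ((circuitMat C)ᴴ *
        PP (Function.update (fun _ => none) out (some true)) * circuitMat C)) := by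
    rw [Dn_eq]
    simp only [← mul_assoc]
    rw [trace_mul_comm]
    simp only [← mul_assoc]
  rw [e, trace_Dn h] at hb
  simp only [proj_entry] at hb
  have e2 : ∑ x : Bits n, (outProb C out x (parity x) - outProb C out x (!parity x)) =
      -2 * ∑ x : Bits n, sg x * outProb C out x true := by
    have : ∀ x : Bits n, outProb C out x (parity x) - outProb C out x (!parity x) =
        -2 * (sg x * outProb C out x true) + sg x := by
      intro x
      have := outProb_add C out x
      rw [sg_eq]
      cases parity x <;> simp <;> linarith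
    simp only [this]
    rw [sum_add_distrib, sum_sg hn, add_zero, Finset.mul_sum]
  have hb' : |∑ x : Bits n, sg x * outProb C out x true| ≤ 2 ^ n * (1 / 2 : ℝ) ^ l := by
    rw [← Real.norm_eq_abs, ← Complex.norm_real]
    push_cast
    unfold outProb
    exact hb
  rw [e2, abs_div, abs_mul, abs_of_pos (show (0 : ℝ) < 2 ^ n by positivity),
    div_le_iff₀ (by positivity)]
  norm_num at hb' ⊢
  linarith

theorem main_corr (d c : ℕ) (ε : ℝ) (hε : 0 < ε) : ∃ n0 : ℕ, ∀ n ≥ n0, ∀ N : ℕ, n ≤ N → N ≤ n ^ c →
    ∀ C : List (Layer N), C.length ≤ d → ∀ out : Fin N,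
    |(∑ x : Bits n, (outProb C out x (parity x) - outProb C out x (!parity x))) / 2 ^ n| ≤ ε := by
  obtain ⟨l0, hl0⟩ := exists_pow_lt_of_lt_one (show 0 < ε / 2 by positivity)
    (show (1 / 2 : ℝ) < 1 by norm_num)
  set l := l0 + 1 with hl
  obtain ⟨B0, hB0⟩ := linAll d (2 * c + 1)
  set B1 := max (max B0 (2 * l)) 2 with hB1
  refine ⟨B1 * l, fun n hn N hN hNc C hC out => ?_⟩
  have hl1 : 0 < l := by omega
  have hB : B1 ≤ n / l := (Nat.le_div_iff_mul_le hl1).2 hn
  have h1 : n / l * l ≤ n := Nat.div_mul_le_self n l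
  have h2 := Nat.lt_div_mul_add (a := n) hl1
  set B := n / l with hBdef
  have hB2 : 2 ≤ B := le_trans (le_max_right _ _) hB
  have hB3 : 2 * l ≤ B := le_trans (le_trans (le_max_right _ _) (le_max_left _ _)) hB
  have hB4 : B0 ≤ B := le_trans (le_trans (le_max_left _ _) (le_max_left _ _)) hB
  have hn2 : n ≤ B ^ 2 := by nlinarith
  have hN2 : N < B ^ (2 * c + 1) := by
    calc N ≤ n ^ c := hNc
      _ ≤ (B ^ 2) ^ c := by gcongr
      _ = B ^ (2 * c) := by rw [← pow_mul]
      _ < _ := Nat.pow_lt_pow_right (by omega) (by omega)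
  have hn1 : 1 ≤ n := by nlinarith
  refine (corr_bound hn1 hN h1 (hB0 B hB4 N hN2) C hC out).trans ?_
  have : (1 / 2 : ℝ) ^ l ≤ (1 / 2) ^ l0 := pow_le_pow_of_le_one (by norm_num) (by norm_num) (by omega)
  linarith

theorem main_worst {n : ℕ} (C : List (Layer N)) (out : Fin N) (ε : ℝ) (hε : 0 < ε)
    (h : |(∑ x : Bits n, (outProb C out x (parity x) - outProb C out x (!parity x))) / 2 ^ n| ≤ ε) :
    ∃ x : Bits n, outProb C out x (parity x) < 1 / 2 + ε := by
  by_contra hc
  push Not at hc
  have h1 : ∀ x : Bits n, 2 * ε ≤ outProb C out x (parity x) - outProb C out x (!parity x) := by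
    intro x
    have a := hc x
    have b := outProb_add C out x
    revert a
    cases parity x <;> simp <;> intro a <;> linarith
  have h2 := sum_le_sum (s := univ) fun x _ => h1 x
  simp only [sum_const, card_univ, Fintype.card_pi, Fintype.card_bool, prod_const, Fintype.card_fin,
    nsmul_eq_mul] at h2
  have h3 := (le_abs_self _).trans h
  rw [div_le_iff₀ (by positivity)] at h3
  push_cast at h2
  have : (0 : ℝ) < 2 ^ n * ε := by positivity
  linarith

theorem poly_le (p : Polynomial ℕ) (n : ℕ) (h1 : 1 ≤ n) (h2 : p.eval 1 ≤ n) :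
    p.eval n ≤ n ^ (p.natDegree + 1) := by
  rw [Polynomial.eval_eq_sum_range] at h2 ⊢
  calc ∑ i ∈ range (p.natDegree + 1), p.coeff i * n ^ i
      ≤ ∑ i ∈ range (p.natDegree + 1), p.coeff i * 1 ^ i * n ^ p.natDegree := by
        apply sum_le_sum
        intro i hi
        rw [one_pow, mul_one]
        gcongr
        simp at hi
        omega
    _ = (∑ i ∈ range (p.natDegree + 1), p.coeff i * 1 ^ i) * n ^ p.natDegree := by
        rw [Finset.sum_mul]
    _ ≤ n * n ^ p.natDegree := by gcongr
    _ = _ := by ring

end Vale.Agent.P368
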