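import Vale.Agent.P368.Core

namespace Vale.Agent.P368

open Matrix Finset
open scoped Matrix.Norms.L2Operator

variable {M : ℕ}

/-- Tensor product of one-qubit matrices. -/
noncomputable def tens (A : Fin M → M2) : Mat M := fun x y => ∏ i, A i (x i) (y i)

theorem tens_mul (A B : Fin M → M2) : tens A * tens B = tens (fun i => A i * B i) := by
  ext x y
  simp only [tens, Matrix.mul_apply]
  rw [Finset.prod_univ_sum]
  simp only [Fintype.piFinset_univ, prod_mul_distrib]

theorem tens_star (A : Fin M → M2) : (tens A)ᴴ = tens (fun i => (A i)ᴴ) := by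
  ext x y
  simp [tens, conjTranspose_apply]

theorem tens_one : tens (fun _ : Fin M => (1 : M2)) = 1 := by
  ext x y
  simp only [tens, Matrix.one_apply]
  by_cases h : x = y
  · simp [h]
  · rw [if_neg h]
    obtain ⟨i, hi⟩ := Function.ne_iff.1 h
    exact prod_eq_zero (mem_univ i) (if_neg hi)

theorem tens_ne_zero {A : Fin M → M2} {x y : Bits M} (h : tens A x y ≠ 0) {i : Fin M}
    (hi : A i = 1) : x i = y i := by
  by_contra hne
  apply h
  exact prod_eq_zero (mem_univ i) (by rw [hi, Matrix.one_apply, if_neg hne])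

theorem diag_comm_tens (f : Bits M → ℂ) (A : Fin M → M2)
    (h : ∀ x y : Bits M, (∀ i, A i = 1 → x i = y i) → f x = f y) :
    diagonal f * tens A = tens A * diagonal f := by
  ext x y
  rw [diagonal_mul, mul_diagonal]
  by_cases h0 : tens A x y = 0
  · simp [h0]
  · rw [h x y fun i hi => tens_ne_zero h0 hi, mul_comm]

def Uni (u : Fin M → M2) : Prop := ∀ i, (u i)ᴴ * u i = 1 ∧ u i * (u i)ᴴ = 1

theorem Uni.mul {u v : Fin M → M2} (hu : Uni u) (hv : Uni v) : Uni (fun i => u i * v i) := by
  intro i
  constructor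
  · rw [conjTranspose_mul, mul_assoc, ← mul_assoc _ (u i), (hu i).1, one_mul, (hv i).1]
  · rw [conjTranspose_mul, mul_assoc, ← mul_assoc (v i), (hv i).2, one_mul, (hu i).2]

theorem Uni.star {u : Fin M → M2} (hu : Uni u) : Uni (fun i => (u i)ᴴ) := by
  intro i
  rw [conjTranspose_conjTranspose]
  exact ⟨(hu i).2, (hu i).1⟩

theorem uni_one : Uni (fun _ : Fin M => (1 : M2)) := fun _ => by simp

theorem Uni.tens_star_mul {u : Fin M → M2} (hu : Uni u) : (tens u)ᴴ * tens u = 1 := by
  rw [tens_star, tens_mul, ← tens_one]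
  congr 1
  funext i
  exact (hu i).1

noncomputable def zf (g : Fin M → ℕ) (S : Finset ℕ) (x : Bits M) : ℝ :=
  ∏ b ∈ S, (if ∀ i, g i = b → x i = true then -1 else 1)

noncomputable def Zm (g : Fin M → ℕ) (S : Finset ℕ) : Mat M := dr (zf g S)

theorem dr_mul (f g : Bits M → ℝ) : dr f * dr g = dr (fun x => f x * g x) := by
  unfold dr; rw [diagonal_mul_diagonal]; simp

theorem dr_star (f : Bits M → ℝ) : (dr f)ᴴ = dr f := by
  unfold dr; rw [diagonal_conjTranspose]; congr 1; funext x; simp

theorem dr_one : dr (fun _ : Bits M => 1) = 1 := by simp [dr]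

theorem Zm_star (g : Fin M → ℕ) (S : Finset ℕ) : (Zm g S)ᴴ = Zm g S := dr_star _

theorem Zm_mul_self (g : Fin M → ℕ) (S : Finset ℕ) : Zm g S * Zm g S = 1 := by
  unfold Zm
  rw [dr_mul, ← dr_one]
  congr 1
  funext x
  unfold zf
  rw [← prod_mul_distrib]
  apply prod_eq_one
  intro b _
  split_ifs <;> simp

theorem Zm_empty (g : Fin M → ℕ) : Zm g ∅ = 1 := by
  unfold Zm zf; simp [dr_one]

inductive Cir : ℕ → Mat M → Prop
  | base (u : Fin M → M2) (hu : Uni u) : Cir 0 (tens u)
  | step {d : ℕ} {U : Mat M} (h : Cir d U) (g : Fin M → ℕ) (S : Finset ℕ) (u : Fin M → M2)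
      (hu : Uni u) : Cir (d + 1) (U * Zm g S * tens u)

theorem Cir.mul_tens {d : ℕ} {U : Mat M} (h : Cir d U) {v : Fin M → M2} (hv : Uni v) :
    Cir d (U * tens v) := by
  cases h with
  | base u hu => rw [tens_mul]; exact Cir.base _ (hu.mul hv)
  | step h g S u hu => rw [mul_assoc, tens_mul]; exact Cir.step h g S _ (hu.mul hv)

theorem Cir.tens_mul {d : ℕ} {U : Mat M} (h : Cir d U) {v : Fin M → M2} (hv : Uni v) :
    Cir d (tens v * U) := by
  induction h with
  | base u hu => rw [P368.tens_mul]; exact Cir.base _ (hv.mul hu)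
  | step h g S u hu ih => rw [← mul_assoc, ← mul_assoc]; exact Cir.step ih g S _ hu

theorem Cir.left_step {d : ℕ} {U : Mat M} (h : Cir d U) (g : Fin M → ℕ) (S : Finset ℕ)
    {v : Fin M → M2} (hv : Uni v) : Cir (d + 1) (tens v * Zm g S * U) := by
  induction h with
  | base u hu => exact Cir.step (Cir.base v hv) g S u hu
  | step h g' S' u hu ih => rw [← mul_assoc, ← mul_assoc]; exact Cir.step ih g' S' _ hu

theorem Cir.star {d : ℕ} {U : Mat M} (h : Cir d U) : Cir d Uᴴ := by
  induction h with
  | base u hu => rw [tens_star]; exact Cir.base _ hu.star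
  | step h g S u hu ih =>
    rw [conjTranspose_mul, conjTranspose_mul, Zm_star, tens_star, ← mul_assoc]
    exact ih.left_step g S hu.star

theorem Cir.unitary {d : ℕ} {U : Mat M} (h : Cir d U) : Uᴴ * U = 1 := by
  induction h with
  | base u hu => exact hu.tens_star_mul
  | @step d U h g S u hu ih =>
    rw [conjTranspose_mul, conjTranspose_mul, Zm_star]
    calc (tens u)ᴴ * (Zm g S * Uᴴ) * (U * Zm g S * tens u)
        = (tens u)ᴴ * (Zm g S * (Uᴴ * U) * Zm g S) * tens u := by simp only [mul_assoc]
      _ = 1 := by rw [ih, mul_one, Zm_mul_self, mul_one, hu.tens_star_mul]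

theorem Cir.norm_le {d : ℕ} {U : Mat M} (h : Cir d U) : ‖U‖ ≤ 1 := norm_le_one_of_unitary h.unitary

theorem Cir.succ {d : ℕ} {U : Mat M} (h : Cir d U) : Cir (d + 1) U := by
  have := Cir.step h (fun _ => 0) ∅ _ uni_one
  rwa [Zm_empty, tens_one, mul_one, mul_one] at this

theorem Cir.mono {d d' : ℕ} {U : Mat M} (h : Cir d U) (hd : d ≤ d') : Cir d' U := by
  induction hd with
  | refl => exact h
  | step _ ih => exact ih.succ

/-- One-qubit projector of a pattern entry. -/
noncomputable def pr (o : Option Bool) : M2 := diagonal (fun a => if o = some (!a) then 0 else 1)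

theorem pr_none : pr none = 1 := by simp [pr]

theorem PP_eq_tens (ρ : Pat M) : PP ρ = tens (fun i => pr (ρ i)) := by
  ext x y
  unfold PP ind tens pr
  by_cases h : x = y
  · subst h
    simp only [diagonal_apply_eq]
    by_cases h0 : cnt ρ x = 0
    · rw [if_pos h0]
      symm
      apply prod_eq_one
      intro i _
      rw [if_neg]
      intro hi
      unfold cnt at h0
      rw [card_eq_zero, eq_empty_iff_forall_notMem] at h0
      exact h0 i (by simp [mis, hi])
    · rw [if_neg h0]
      obtain ⟨i, hi⟩ := card_pos.1 (Nat.pos_of_ne_zero h0)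
      symm
      apply prod_eq_zero (mem_univ i)
      rw [if_pos]
      simpa [mis] using hi
  · rw [diagonal_apply_ne _ h]
    obtain ⟨i, hi⟩ := Function.ne_iff.1 h
    symm
    apply prod_eq_zero (mem_univ i)
    exact diagonal_apply_ne _ hi

theorem conj_res {u : Fin M → M2} (hu : Uni u) (ρ : Pat M) (g : Fin M → ℕ) (T : Finset ℕ) :
    ∃ A : Fin M → M2, (∀ i, g i ∉ T → A i = 1) ∧
      tens u * PP (res ρ g T) * (tens u)ᴴ = tens A := by
  refine ⟨_, ?_, by rw [PP_eq_tens, tens_star, tens_mul, tens_mul]⟩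
  intro i hi
  simp only [res, if_neg hi, pr_none, mul_one]
  exact (hu i).2

theorem ind_apply_mul (p q : Bits M → Prop) (X : Mat M) (x y : Bits M)
    (h : p x → q y → X x y = 0) : (ind p * X * ind q) x y = 0 := by
  unfold ind
  rw [mul_diagonal, diagonal_mul]
  by_cases hp : p x <;> by_cases hq : q y <;> simp [hp, hq, h]

theorem star_zero {U : Mat M} (h : Cir 0 U) : StarP U 1 := by
  have hn := h.norm_le
  cases h with
  | base u hu =>
    refine ⟨Fin.val, fun ρ' T ρ l => ?_⟩
    rcases lt_or_ge T.card l with hl | hl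
    · obtain ⟨A, hA, e⟩ := conj_res hu ρ' Fin.val T
      rw [e]
      have : WW ρ (1 * l) * tens A * PP ρ = 0 := by
        ext x y
        apply ind_apply_mul
        intro hx hy
        by_contra h0
        have hsub : (mis ρ x).image Fin.val ⊆ T := by
          intro b hb
          obtain ⟨i, hi, rfl⟩ := mem_image.1 hb
          by_contra hT
          have := tens_ne_zero h0 (hA i hT)
          unfold cnt at hy
          rw [card_eq_zero, eq_empty_iff_forall_notMem] at hy
          apply hy i
          simp only [mis, mem_filter, mem_univ, true_and] at hi ⊢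
          rw [← this]; exact hi
        have := card_le_card hsub
        rw [card_image_of_injective _ Fin.val_injective] at this
        unfold cnt at hx
        omega
      rw [this, norm_zero]
      positivity
    · refine (sandwich_le_one _ _ (norm_conj_le hn (norm_PP _))).trans ?_
      calc (1 : ℝ) = (2 * (1 / 2)) ^ l := by norm_num
        _ = 2 ^ l * (1 / 2) ^ l := mul_pow _ _ _
        _ ≤ 9 ^ l * (1 / 2) ^ l := by gcongr; norm_num
        _ ≤ _ := by gcongr; norm_num

theorem Zm_expand (g : Fin M → ℕ) (S : Finset ℕ) :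
    Zm g S = ∑ A ∈ S.powerset, (((-2 : ℝ) ^ A.card : ℝ) : ℂ) • PP (res (fun _ => some true) g A) := by
  simp only [← dr_beta, ← dr_smul]
  rw [← dr_sum]
  unfold Zm
  congr 1
  funext x
  unfold zf
  have e1 : ∀ b ∈ S, (if ∀ i, g i = b → x i = true then (-1 : ℝ) else 1) =
      1 + (-2) * (if b ∉ (mis (fun _ => some true) x).image g then 1 else 0) := by
    intro b _
    have : (∀ i, g i = b → x i = true) ↔ b ∉ (mis (fun _ => some true) x).image g := by
      simp only [mis, mem_image, mem_filter, mem_univ, true_and, not_exists, not_and]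
      constructor
      · intro h i hi hg
        rw [h i hg] at hi
        simp at hi
      · intro h i hg
        by_contra hx
        exact h i (by simp [hx]) hg
    simp only [this]
    split_ifs <;> norm_num
  rw [prod_congr rfl e1, prod_one_add]
  apply sum_congr rfl
  intro A _
  rw [prod_mul_distrib, prod_const, prod_ite_zero, beta]
  simp

theorem Zm_union (g : Fin M → ℕ) (S T : Finset ℕ) : Zm g S = Zm g (S ∩ T) * Zm g (S \ T) := by
  unfold Zm
  rw [dr_mul]
  congr 1
  funext x
  unfold zf
  rw [prod_inter_mul_prod_diff]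

theorem Zm_comm (g : Fin M → ℕ) (S T : Finset ℕ) : Zm g S * Zm g T = Zm g T * Zm g S := by
  unfold Zm
  rw [dr_mul, dr_mul]
  simp only [mul_comm]

theorem Zm_comm_tens (g : Fin M → ℕ) (S : Finset ℕ) (A : Fin M → M2)
    (hA : ∀ i, g i ∈ S → A i = 1) : Zm g S * tens A = tens A * Zm g S := by
  apply diag_comm_tens
  intro x y h
  congr 1
  unfold zf
  apply prod_congr rfl
  intro b hb
  have : (∀ i, g i = b → x i = true) ↔ (∀ i, g i = b → y i = true) := by
    constructor
    · intro h' i hi; rw [← h i (hA i (hi ▸ hb))]; exact h' i hi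
    · intro h' i hi; rw [h i (hA i (hi ▸ hb))]; exact h' i hi
  simp only [this]

theorem star_succ {d s Λ : ℕ} (hΛ : M + 1 ≤ 2 ^ Λ) (hΛ1 : 1 ≤ Λ) (hs : 1 ≤ s)
    (hL : ∀ U : Mat M, Cir d U → LinP U s) {U : Mat M} (h : Cir (d + 1) U) :
    StarP U (36 * Λ ^ 2 * s ^ 3) := by
  cases h with
  | @step _ U h g S u hu =>
    refine ⟨g, fun ρ' T ρ l => ?_⟩
    obtain ⟨A, hA, e⟩ := conj_res hu ρ' g T
    have hUU : Uᴴ * U = 1 := h.unitary
    have e1 : U * Zm g S * tens u * PP (res ρ' g T) * (U * Zm g S * tens u)ᴴ =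
        U * (Zm g (S ∩ T) * tens A * Zm g (S ∩ T)) * Uᴴ := by
      have hc : Zm g (S \ T) * tens A = tens A * Zm g (S \ T) :=
        Zm_comm_tens g _ A fun i hi => hA i (mem_sdiff.1 hi).2
      have e2 : Zm g S * tens A * Zm g S = Zm g (S ∩ T) * tens A * Zm g (S ∩ T) := by
        calc Zm g S * tens A * Zm g S = Zm g (S ∩ T) * (Zm g (S \ T) * tens A) *
              (Zm g (S \ T) * Zm g (S ∩ T)) := by
                rw [Zm_comm g (S \ T), ← mul_assoc (Zm g (S ∩ T)), ← Zm_union]
          _ = Zm g (S ∩ T) * tens A * (Zm g (S \ T) * Zm g (S \ T)) * Zm g (S ∩ T) := by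
                rw [hc]; simp only [mul_assoc]
          _ = _ := by rw [Zm_mul_self, mul_one]
      rw [← e2, ← e, conjTranspose_mul, conjTranspose_mul, Zm_star]
      simp only [mul_assoc]
    have hloc : ∀ B B' : Finset ℕ,
        ‖WW ρ (36 * Λ ^ 2 * s ^ 3 * l) * (U * (PP (res (fun _ => some true) g B) * tens A *
          PP (res (fun _ => some true) g B')) * Uᴴ) * PP ρ‖ ≤ (1 / 2 : ℝ) ^ l := by
      intro B B'
      have n1 := norm_conj_le h.norm_le (norm_PP (res (fun _ => some true) g B))
      have n2 := norm_conj_le (h.mul_tens hu).norm_le (norm_PP (res ρ' g T))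
      have n3 := norm_conj_le h.norm_le (norm_PP (res (fun _ => some true) g B'))
      have l1 := hL U h (res (fun _ => some true) g B)
      have l2 := hL _ (h.mul_tens hu) (res ρ' g T)
      have l3 := hL U h (res (fun _ => some true) g B')
      have l12 := loc_mul hΛ hΛ1 hs hs l1 l2 n1 n2
      have l123 := loc_mul hΛ hΛ1 (Nat.mul_pos (Nat.mul_pos (by omega) hs) hs) hs l12 l3
        (norm_mul_le_one n1 n2) n3 ρ l
      have e3 : U * (PP (res (fun _ => some true) g B) * tens A *
          PP (res (fun _ => some true) g B')) * Uᴴ =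
          U * PP (res (fun _ => some true) g B) * Uᴴ *
            (U * tens u * PP (res ρ' g T) * (U * tens u)ᴴ) *
            (U * PP (res (fun _ => some true) g B') * Uᴴ) := by
        rw [← e, conjTranspose_mul]
        simp only [mul_assoc]
        rw [← mul_assoc Uᴴ U, hUU, one_mul, ← mul_assoc Uᴴ U, hUU, one_mul]
      rw [e3]
      convert l123 using 5
      ring
    rw [e1, Zm_expand]
    simp only [Finset.sum_mul, Finset.mul_sum, smul_mul_assoc, mul_smul_comm]
    have hsum : ∑ B ∈ (S ∩ T).powerset, (2 : ℝ) ^ B.card ≤ 3 ^ T.card := by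
      have := Finset.sum_pow_mul_eq_add_pow (2 : ℝ) 1 (S ∩ T)
      simp only [one_pow, mul_one] at this
      rw [this]
      norm_num
      exact pow_le_pow_right₀ (by norm_num) (card_le_card inter_subset_right)
    refine (norm_sum_le _ _).trans ?_
    calc _ ≤ ∑ B' ∈ (S ∩ T).powerset, ∑ B ∈ (S ∩ T).powerset,
          (2 : ℝ) ^ B'.card * ((2 : ℝ) ^ B.card * (1 / 2 : ℝ) ^ l) := by
          apply sum_le_sum
          intro B' _
          rw [Finset.smul_sum]
          refine (norm_sum_le _ _).trans (sum_le_sum ?_)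
          intro B _
          rw [norm_smul, norm_smul]
          simp only [Complex.norm_real, norm_pow, norm_neg, Real.norm_ofNat]
          gcongr
          exact hloc _ _
      _ = (∑ B ∈ (S ∩ T).powerset, (2 : ℝ) ^ B.card) * (∑ B ∈ (S ∩ T).powerset, (2 : ℝ) ^ B.card) *
            (1 / 2 : ℝ) ^ l := by
          rw [sum_mul_sum, Finset.sum_mul]
          apply sum_congr rfl
          intro B' _
          rw [Finset.sum_mul]
          apply sum_congr rfl
          intro B _
          ring
      _ ≤ 3 ^ T.card * 3 ^ T.card * (1 / 2 : ℝ) ^ l := by gcongr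
      _ = _ := by rw [← mul_pow]; norm_num

end Vale.Agent.P368
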